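import Crest.Agent.X212.Mp86.Bar
import Crest.Agent.X212.An.Defs

-- ▼ part X212/Mp86/Pun
section

/-!
# Row 212, layer AN (helper86): maximum principle with finitely many removable points

`maxp`: on a compact set `K`, a function bounded above and `C²` off a finite set `S`, with
`Lop f > 0` where `f > m` and `f ≤ m` on the boundary of `K`, is `≤ m`.
-/

set_option autoImplicit false
open Set Filter Topology Module
open scoped Manifold ContDiff InnerProductSpace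

noncomputable section

namespace Crest.Agent.X212.Mp86

variable {E H M : Type*} [NormedAddCommGroup E] [NormedSpace ℝ E] [FiniteDimensional ℝ E]
  [TopologicalSpace H] {I : ModelWithCorners ℝ E H} [TopologicalSpace M] [ChartedSpace H M]
  [IsManifold I ∞ M] [BoundarylessManifold I M]
  {ι : Type*} [Fintype ι] {e : ι → Π x : M, TangentSpace I x} {b : ι → M → ℝ}
  {U : Type*} [NormedAddCommGroup U] [InnerProductSpace ℝ U]

theorem le_of_sq {a m : ℝ} (h : a ^ 2 ≤ m ^ 2) (h0 : 0 ≤ m) : a ≤ m :=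
  (le_abs_self a).trans (abs_le_of_sq_le_sq' h h0 |> abs_le.2)

/-- no punctures -/
theorem maxp0 {K : Set M} (hK : IsCompact K) {f : M → ℝ} {m : ℝ} (hc : ContinuousOn f K)
    (he : ∀ x ∈ interior K, ∀ a, VF I 1 (e a) x) (hf : ∀ x ∈ interior K, m < f x → CM I 2 f x)
    (hL : ∀ x ∈ interior K, m < f x → IsMaxOn f K x → 0 < Lop I e b f x)
    (hfr : ∀ x ∈ K, x ∉ interior K → f x ≤ m) : ∀ x ∈ K, f x ≤ m := by
  intro x hx
  have := FiniteDimensional.complete ℝ E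
  obtain ⟨z, hz, hm⟩ := hK.exists_isMaxOn ⟨x, hx⟩ hc
  refine (hm hx).trans (le_of_not_gt fun h => ?_)
  by_cases hi : z ∈ interior K
  · exact (hL z hi h hm).not_ge (Lop_nonpos (he z hi) (hf z hi h)
      (hm.isLocalMax (mem_interior_iff_mem_nhds.1 hi)))
  · exact (hfr z hz hi).not_gt h

/-- one puncture, with a given barrier: `f - ε ψ → -∞` for all `ε > 0` -/
theorem maxp1 [T2Space M] {N : Set M} (hN : IsCompact N) {s : M} {f ψ : M → ℝ} {m : ℝ}
    (he : ∀ x ∈ N \ {s}, ∀ a, VF I 1 (e a) x) (hf : ∀ x ∈ N \ {s}, CM I 2 f x)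
    (hψ : ∀ x ∈ N \ {s}, CM I 2 ψ x ∧ 0 ≤ ψ x ∧ Lop I e b ψ x ≤ 0)
    (ht : ∀ ε > 0, Tendsto (fun y => f y - ε * ψ y) (𝓝[≠] s) atBot)
    (hL : ∀ x ∈ interior N \ {s}, m < f x → 0 < Lop I e b f x)
    (hfr : ∀ x ∈ N \ {s}, x ∉ interior N → f x ≤ m) : ∀ x ∈ N \ {s}, f x ≤ m := by
  intro x hx
  have := FiniteDimensional.complete ℝ E
  have key : ∀ ε > 0, f x - ε * ψ x ≤ m := by
    intro ε hε
    set g : M → ℝ := fun y => f y - ε * ψ y with hg
    have hg2 : ∀ y ∈ N \ {s}, CM I 2 g y := fun y hy =>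
      (hf y hy).sub (contMDiffAt_const.mul (hψ y hy).1)
    obtain ⟨O, hO, hsO, hlt⟩ := mem_nhdsWithin.1 ((ht ε hε).eventually_lt_atBot (g x))
    have hxO : x ∉ O := fun h => lt_irrefl (g x) (hlt ⟨h, hx.2⟩)
    have hsub : N \ O ⊆ N \ {s} := fun y hy => ⟨hy.1, fun h => hy.2 (h ▸ hsO)⟩
    obtain ⟨z, hz, hm⟩ := (hN.diff hO).exists_isMaxOn ⟨x, hx.1, hxO⟩
      fun y hy => (hg2 y (hsub hy)).continuousAt.continuousWithinAt
    have hz' := hsub hz
    have h0 : g x ≤ g z := hm ⟨hx.1, hxO⟩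
    have h1 : g z ≤ f z := sub_le_self _ (mul_nonneg hε.le (hψ z hz').2.1)
    refine h0.trans (h1.trans (le_of_not_gt fun h => ?_))
    by_cases hi : z ∈ interior N
    · have hm' : IsLocalMax g z := by
        filter_upwards [mem_interior_iff_mem_nhds.1 hi, isOpen_compl_singleton.mem_nhds hz'.2]
          with y h2 h3
        by_cases h4 : y ∈ O
        · exact (hlt ⟨h4, h3⟩).le.trans h0
        · exact hm ⟨h2, h4⟩
      have h5 := Lop_nonpos (b := b) (he z hz') (hg2 z hz') hm'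
      rw [hg, Lop_sub (w := fun y => ε * ψ y) (he z hz') (hf z hz')
        (contMDiffAt_const.mul (hψ z hz').1),
        Lop_mul _ (he z hz') (hψ z hz').1] at h5
      have h6 := hL z ⟨hi, hz'.2⟩ h
      have h7 := mul_nonpos_of_nonneg_of_nonpos hε.le (hψ z hz').2.2
      linarith
    · exact (hfr z hz' hi).not_gt h
  have : Tendsto (fun ε : ℝ => f x - ε * ψ x) (𝓝[>] 0) (𝓝 (f x - 0 * ψ x)) :=
    (tendsto_const_nhds.sub (tendsto_id.mul_const _)).mono_left nhdsWithin_le_nhds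
  rw [zero_mul, sub_zero] at this
  exact le_of_tendsto this (eventually_nhdsWithin_of_forall key)

/-- maximum principle with finitely many removable points -/
theorem maxp [T2Space M] (hd : 3 ≤ finrank ℝ E) {K S : Set M} (hK : IsCompact K) (hS : S.Finite)
    (hSK : S ⊆ interior K) {f : M → ℝ} {m C : ℝ}
    (he : ∀ x ∈ K, ∀ a, VF I 1 (e a) x) (hb : ∀ s ∈ S, ∀ a, ContinuousAt (b a) s)
    (hs : ∀ s ∈ S, Submodule.span ℝ (range fun a => (show E from e a s)) = ⊤)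
    (hf : ∀ x ∈ K \ S, CM I 2 f x) (hC : ∀ x ∈ K \ S, f x ≤ C)
    (hL : ∀ x ∈ interior K \ S, m < f x → 0 < Lop I e b f x)
    (hfr : ∀ x ∈ K, x ∉ interior K → f x ≤ m) : ∀ x ∈ K \ S, f x ≤ m := by
  have := FiniteDimensional.complete ℝ E
  have := Manifold.locallyCompact_of_finiteDimensional (M := M) I
  -- small compact neighbourhoods of the punctures
  have h1 : ∀ s ∈ S, ∃ N : Set M, N ∈ 𝓝 s ∧ IsClosed N ∧ N ⊆ interior K ∧ N ∩ S ⊆ {s} ∧
      ∀ m', m ≤ m' → (∀ x ∈ N \ {s}, x ∉ interior N → f x ≤ m') → ∀ x ∈ N \ {s}, f x ≤ m' := by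
    intro s hsS
    obtain ⟨ψ, h2, h3⟩ := exists_barrier hd (he s (interior_subset (hSK hsS))) (hb s hsS) (hs s hsS)
    have h4 : (S \ {s})ᶜ ∈ 𝓝 s :=
      (hS.subset sdiff_subset).isClosed.isOpen_compl.mem_nhds (by simp)
    obtain ⟨N, hN, hsub, hc⟩ := local_compact_nhds (inter_mem (eventually_nhdsWithin_iff.1 h3)
      (inter_mem (isOpen_interior.mem_nhds (hSK hsS)) h4))
    have h5 : N ∩ S ⊆ {s} := fun y hy => by
      by_contra h; exact (hsub hy.1).2.2 ⟨hy.2, h⟩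
    have h6 : ∀ y ∈ N \ {s}, y ∈ interior K \ S := fun y hy =>
      ⟨(hsub hy.1).2.1, fun h => hy.2 (h5 ⟨hy.1, h⟩)⟩
    have h7 : ∀ y ∈ N \ {s}, y ∈ K \ S := fun y hy => ⟨interior_subset (h6 y hy).1, (h6 y hy).2⟩
    refine ⟨N, hN, hc.isClosed, fun y hy => (hsub hy).2.1, h5, fun m' hm' hfr' => ?_⟩
    refine maxp1 (b := b) hc (fun y hy => he y (h7 y hy).1) (fun y hy => hf y (h7 y hy))
      (fun y hy => (hsub hy.1).1 hy.2) (fun ε hε => ?_)
      (fun y hy h => hL y (h6 y ⟨interior_subset hy.1, hy.2⟩) (hm'.trans_lt h)) hfr'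
    have h8 : Tendsto (fun y => C + -(ε * ψ y)) (𝓝[≠] s) atBot :=
      tendsto_atBot_add_const_left _ _ (tendsto_neg_atTop_atBot.comp (h2.const_mul_atTop hε))
    refine tendsto_atBot_mono' _ ?_ h8
    filter_upwards [nhdsWithin_le_nhds hN, self_mem_nhdsWithin] with y a1 a2
    have := hC y (h7 y ⟨a1, a2⟩)
    linarith
  choose! N hN1 hN0 hN2 hN3 hN4 using h1
  let O : M → Set M := fun s => interior (N s) \ ⋃ t ∈ S \ {s}, N t
  have hO : IsOpen (⋃ s ∈ S, O s) := isOpen_biUnion fun s _ => isOpen_interior.sdiff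
    ((hS.subset sdiff_subset).isClosed_biUnion fun t ht => hN0 t ht.1)
  set K' := K \ ⋃ s ∈ S, O s with hK'
  have hsub : K' ⊆ K \ S := fun y hy => ⟨hy.1, fun h => hy.2 (mem_biUnion h
    ⟨mem_interior_iff_mem_nhds.2 (hN1 y h), fun h2 => by
      obtain ⟨t, ht, h3⟩ := mem_iUnion₂.1 h2
      exact ht.2 (hN3 t ht.1 ⟨h3, h⟩).symm⟩)⟩
  have main : ∀ m', m ≤ m' → (∀ x ∈ K', f x ≤ m') → ∀ x ∈ K \ S, f x ≤ m' := by
    intro m' hm' H x hx
    by_cases h : x ∈ K'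
    · exact H x h
    · obtain ⟨s, hsS, h2⟩ := mem_iUnion₂.1 (not_not.1 fun h3 => h ⟨hx.1, h3⟩)
      refine hN4 s hsS m' hm' (fun y hy hi => H y ⟨interior_subset (hN2 s hsS hy.1), fun h3 => ?_⟩)
        x ⟨interior_subset h2.1, fun h3 => hx.2 (h3 ▸ hsS)⟩
      obtain ⟨t, ht, h4⟩ := mem_iUnion₂.1 h3
      by_cases h5 : s = t
      · exact hi (h5 ▸ h4.1)
      · exact h4.2 (mem_biUnion (show s ∈ S \ {t} from ⟨hsS, h5⟩) hy.1)
  refine main m le_rfl fun x hx => le_of_not_gt fun h => ?_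
  obtain ⟨z, hz, hm⟩ := (hK.diff hO).exists_isMaxOn ⟨x, hx⟩
    fun y hy => (hf y (hsub hy)).continuousAt.continuousWithinAt
  have hz1 : m < f z := h.trans_le (hm hx)
  have hz2 := hsub hz
  have hm2 : IsMaxOn f (K \ S) z := main (f z) hz1.le hm
  by_cases hi : z ∈ interior K
  · refine (hL z ⟨hi, hz2.2⟩ hz1).not_ge (Lop_nonpos (he z hz.1) (hf z hz2) (hm2.isLocalMax ?_))
    exact inter_mem (mem_interior_iff_mem_nhds.1 hi) (hS.isClosed.isOpen_compl.mem_nhds hz2.2)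
  · exact (hfr z hz.1 hi).not_gt hz1

variable {A : ι → M → U →L[ℝ] U}

omit [FiniteDimensional ℝ E] [BoundarylessManifold I M] in
/-- where `‖u‖ > m ≥ ‖u - LA u‖` the function `‖u‖²` is strictly subharmonic -/
theorem Lop_normSq_pos {u : M → U} {x : M} {m : ℝ} (he : ∀ a, VF I 1 (e a) x)
    (hA : ∀ a, CM I 1 (A a) x) (hk : ∀ a, ∀ᶠ y in 𝓝 x, ∀ s t, ⟪A a y s, t⟫_ℝ = -⟪s, A a y t⟫_ℝ)
    (hu : CM I 2 u x) (hm : ‖u x - LA I e b A u x‖ ≤ m) (h : m ^ 2 < ‖u x‖ ^ 2) :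
    0 < Lop I e b (fun y => ‖u y‖ ^ 2) x := by
  rw [Lop_normSq he hA hk hu]
  have h1 : m < ‖u x‖ := lt_of_pow_lt_pow_left₀ 2 (norm_nonneg _) h
  have h0 : 0 ≤ m := (norm_nonneg _).trans hm
  have h2 := real_inner_le_norm (u x - LA I e b A u x) (u x)
  rw [inner_sub_left, real_inner_self_eq_norm_sq] at h2
  have h3 : 0 ≤ ∑ a, ‖cd I (e a) (A a) u x‖ ^ 2 := Finset.sum_nonneg fun _ _ => sq_nonneg _
  nlinarith [mul_le_mul_of_nonneg_right hm (norm_nonneg (u x))]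

/-- sup bound for `u - LA u = s` on a compact set with punctures -/
theorem norm_le_of_LA [T2Space M] (hd : 3 ≤ finrank ℝ E) {K S : Set M} (hK : IsCompact K)
    (hS : S.Finite) (hSK : S ⊆ interior K) {u : M → U} {m C : ℝ}
    (he : ∀ x ∈ K, ∀ a, VF I 1 (e a) x) (hb : ∀ s ∈ S, ∀ a, ContinuousAt (b a) s)
    (hs : ∀ s ∈ S, Submodule.span ℝ (range fun a => (show E from e a s)) = ⊤)
    (hA : ∀ x ∈ interior K \ S, ∀ a, CM I 1 (A a) x)
    (hk : ∀ x ∈ interior K \ S, ∀ a s t, ⟪A a x s, t⟫_ℝ = -⟪s, A a x t⟫_ℝ)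
    (hu : ∀ x ∈ K \ S, CM I 2 u x) (hC : ∀ x ∈ K \ S, ‖u x‖ ≤ C) (h0 : 0 ≤ m)
    (hm : ∀ x ∈ interior K \ S, ‖u x - LA I e b A u x‖ ≤ m)
    (hfr : ∀ x ∈ K, x ∉ interior K → ‖u x‖ ≤ m) : ∀ x ∈ K \ S, ‖u x‖ ≤ m := by
  intro x hx
  refine le_of_sq (maxp (b := b) (f := fun y => ‖u y‖ ^ 2) (C := C ^ 2) hd hK hS hSK he hb hs
    (fun y hy => cm_normSq (hu y hy))
    (fun y hy => pow_le_pow_left₀ (norm_nonneg _) (hC y hy) 2) (fun y hy h => ?_)
    (fun y hy hi => pow_le_pow_left₀ (norm_nonneg _) (hfr y hy hi) 2) x hx) h0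
  refine Lop_normSq_pos (he y (interior_subset hy.1)) (hA y hy) (fun a => ?_)
    (hu y ⟨interior_subset hy.1, hy.2⟩) (hm y hy) h
  filter_upwards [(isOpen_interior.sdiff hS.isClosed).mem_nhds hy] with z hz using hk z hz a

/-- sup bound for `u - LA u = s` on a compact set, any dimension -/
theorem norm_le_of_LA0 {K : Set M} (hK : IsCompact K) {u : M → U} {m : ℝ}
    (he : ∀ x ∈ interior K, ∀ a, VF I 1 (e a) x) (hA : ∀ x ∈ interior K, ∀ a, CM I 1 (A a) x)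
    (hk : ∀ x ∈ interior K, ∀ a s t, ⟪A a x s, t⟫_ℝ = -⟪s, A a x t⟫_ℝ)
    (hc : ContinuousOn u K) (hu : ∀ x ∈ interior K, CM I 2 u x) (h0 : 0 ≤ m)
    (hm : ∀ x ∈ interior K, ‖u x - LA I e b A u x‖ ≤ m)
    (hfr : ∀ x ∈ K, x ∉ interior K → ‖u x‖ ≤ m) : ∀ x ∈ K, ‖u x‖ ≤ m := by
  intro x hx
  refine le_of_sq (maxp0 (b := b) (f := fun y => ‖u y‖ ^ 2) hK (hc.norm.pow 2) he
    (fun y hy _ => cm_normSq (hu y hy)) (fun y hy h _ => ?_)
    (fun y hy hi => pow_le_pow_left₀ (norm_nonneg _) (hfr y hy hi) 2) x hx) h0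
  refine Lop_normSq_pos (he y hy) (hA y hy) (fun a => ?_) (hu y hy) (hm y hy) h
  filter_upwards [isOpen_interior.mem_nhds hy] with z hz using hk z hz a

/-- noncompact manifolds: sections tending to zero at infinity, punctures allowed -/
theorem norm_le_of_LA_cocompact [T2Space M] (hd : 3 ≤ finrank ℝ E) {S : Set M} (hS : S.Finite)
    {u : M → U} {m C : ℝ} (he : ∀ x a, VF I 1 (e a) x) (hb : ∀ s ∈ S, ∀ a, ContinuousAt (b a) s)
    (hs : ∀ s ∈ S, Submodule.span ℝ (range fun a => (show E from e a s)) = ⊤)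
    (hA : ∀ x ∉ S, ∀ a, CM I 1 (A a) x) (hk : ∀ x ∉ S, ∀ a s t, ⟪A a x s, t⟫_ℝ = -⟪s, A a x t⟫_ℝ)
    (hu : ∀ x ∉ S, CM I 2 u x) (hC : ∀ x ∉ S, ‖u x‖ ≤ C)
    (hm : ∀ x ∉ S, ‖u x - LA I e b A u x‖ ≤ m) (h0 : Tendsto u (cocompact M) (𝓝 0)) :
    ∀ x ∉ S, ‖u x‖ ≤ m := by
  intro x hx
  have := Manifold.locallyCompact_of_finiteDimensional (M := M) I
  have hm0 : 0 ≤ m := (norm_nonneg _).trans (hm x hx)
  refine le_of_forall_pos_le_add fun ε hε => ?_
  obtain ⟨K₀, hK₀, h1⟩ := mem_cocompact.1 (NormedAddGroup.tendsto_nhds_zero.1 h0 ε hε)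
  obtain ⟨K, hK, h2⟩ := exists_compact_superset ((hK₀.union hS.isCompact).insert x)
  refine norm_le_of_LA (b := b) (C := C) hd hK hS (fun s hs' => h2 (Or.inr (Or.inr hs')))
    (fun y _ => he y) hb hs (fun y hy => hA y hy.2) (fun y hy => hk y hy.2) (fun y hy => hu y hy.2)
    (fun y hy => hC y hy.2) (by linarith) (fun y hy => (hm y hy.2).trans (by linarith))
    (fun y _ hi => ?_) x ⟨interior_subset (h2 (Or.inl rfl)), hx⟩
  have : ‖u y‖ < ε := h1 fun h => hi (h2 (Or.inr (Or.inl h)))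
  linarith

/-- removable points: a bounded solution off `S` agrees with the smooth one (closed manifolds) -/
theorem eq_of_LA [T2Space M] [CompactSpace M] (hd : 3 ≤ finrank ℝ E) {S : Set M} (hS : S.Finite)
    {u w : M → U} {C : ℝ} (he : ∀ x a, VF I 1 (e a) x) (hb : ∀ s ∈ S, ∀ a, ContinuousAt (b a) s)
    (hs : ∀ s ∈ S, Submodule.span ℝ (range fun a => (show E from e a s)) = ⊤)
    (hA : ∀ x ∉ S, ∀ a, CM I 1 (A a) x) (hk : ∀ x ∉ S, ∀ a s t, ⟪A a x s, t⟫_ℝ = -⟪s, A a x t⟫_ℝ)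
    (hu : ∀ x ∉ S, CM I 2 u x) (hw : ∀ x ∉ S, CM I 2 w x) (hC : ∀ x ∉ S, ‖u x - w x‖ ≤ C)
    (h : ∀ x ∉ S, u x - LA I e b A u x = w x - LA I e b A w x) : ∀ x ∉ S, u x = w x := by
  intro x hx
  refine sub_eq_zero.1 (norm_le_zero_iff.1 (norm_le_of_LA_cocompact (b := b) (A := A)
    (u := fun y => u y - w y) hd hS he hb hs hA hk (fun y hy => (hu y hy).sub (hw y hy)) hC
    (fun y hy => ?_) (by simp) x hx))
  rw [LA_sub (he y) (hA y hy) (hu y hy) (hw y hy), sub_sub_sub_comm, h y hy, sub_self, norm_zero]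

end Crest.Agent.X212.Mp86

end
end

-- ▼ part X212/Mp86/C0
section

/-!
# Row 212, layer AN (helper86): abstract `C⁰` bounds

`Φ` satisfies a Weitzenboeck inequality in which the gradient of an auxiliary section `u` (all
resolvent words together) occurs; `f = ‖Φ‖² + m ‖u‖²` is then a subsolution.
-/

set_option autoImplicit false
open Set Filter Topology Module
open scoped Manifold ContDiff InnerProductSpace

noncomputable section

namespace Crest.Agent.X212.Mp86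

variable {E H M : Type*} [NormedAddCommGroup E] [NormedSpace ℝ E]
  [TopologicalSpace H] {I : ModelWithCorners ℝ E H} [TopologicalSpace M] [ChartedSpace H M]
  [IsManifold I ∞ M]
  {ι : Type*} [Fintype ι] {e : ι → Π x : M, TangentSpace I x} {b : ι → M → ℝ}
  {U U' : Type*} [NormedAddCommGroup U] [InnerProductSpace ℝ U]
  [NormedAddCommGroup U'] [InnerProductSpace ℝ U']
  {A : ι → M → U →L[ℝ] U} {A' : ι → M → U' →L[ℝ] U'} {Φ : M → U} {u : M → U'} {x : M}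

/-- a metric connection near `x` -/
structure MC (I : ModelWithCorners ℝ E H) (A : ι → M → U →L[ℝ] U) (x : M) : Prop where
  sm : ∀ a, CM I 1 (A a) x
  sk : ∀ a, ∀ᶠ y in 𝓝 x, ∀ s t, ⟪A a y s, t⟫_ℝ = -⟪s, A a y t⟫_ℝ

/-- squared norm of the covariant derivative -/
def gr2 (I : ModelWithCorners ℝ E H) (e : ι → Π x : M, TangentSpace I x) (A : ι → M → U →L[ℝ] U)
    (u : M → U) (x : M) : ℝ := ∑ a, ‖cd I (e a) (A a) u x‖ ^ 2

omit [IsManifold I ∞ M] in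
theorem gr2_nonneg : 0 ≤ gr2 I e A Φ x := Finset.sum_nonneg fun _ _ => sq_nonneg _

omit [IsManifold I ∞ M] in
theorem cm_F {m : ℝ} (hΦ : CM I 2 Φ x) (hu : CM I 2 u x) :
    CM I 2 (fun y => ‖Φ y‖ ^ 2 + m * ‖u y‖ ^ 2) x :=
  (cm_normSq hΦ).add (contMDiffAt_const.mul (cm_normSq hu))

/-- the combined subsolution -/
theorem Lop_F {m β q : ℝ} (he : ∀ a, VF I 1 (e a) x) (hA : MC I A x) (hA' : MC I A' x)
    (hΦ : CM I 2 Φ x) (hu : CM I 2 u x) (hm : 0 ≤ m) (hβ : ‖u x - LA I e b A' u x‖ ≤ β)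
    (hW : q - gr2 I e A Φ x - m * gr2 I e A' u x ≤ ⟪LA I e b A Φ x, Φ x⟫_ℝ) :
    2 * q - m * β ^ 2 / 2 ≤ Lop I e b (fun y => ‖Φ y‖ ^ 2 + m * ‖u y‖ ^ 2) x := by
  rw [Lop_add (w := fun y => m * ‖u y‖ ^ 2) he (cm_normSq hΦ)
    (contMDiffAt_const.mul (cm_normSq hu)), Lop_mul _ he (cm_normSq hu),
    Lop_normSq he hA.sm hA.sk hΦ, Lop_normSq he hA'.sm hA'.sk hu]
  have h2 := real_inner_le_norm (u x - LA I e b A' u x) (u x)
  rw [inner_sub_left, real_inner_self_eq_norm_sq] at h2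
  have h3 : -(β ^ 2 / 4) ≤ ⟪LA I e b A' u x, u x⟫_ℝ := by
    nlinarith [mul_le_mul_of_nonneg_right hβ (norm_nonneg (u x)), sq_nonneg (‖u x‖ - β / 2)]
  unfold gr2 at hW
  nlinarith [mul_le_mul_of_nonneg_left h3 hm]

variable [FiniteDimensional ℝ E] [BoundarylessManifold I M]

/-- `C⁰` bound at a maximum point of `‖Φ‖² + m ‖u‖²` -/
theorem c0_at_max {m β q : ℝ} (he : ∀ a, VF I 1 (e a) x) (hA : MC I A x) (hA' : MC I A' x)
    (hΦ : CM I 2 Φ x) (hu : CM I 2 u x) (hm : 0 ≤ m) (hβ : ‖u x - LA I e b A' u x‖ ≤ β)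
    (hW : q - gr2 I e A Φ x - m * gr2 I e A' u x ≤ ⟪LA I e b A Φ x, Φ x⟫_ℝ)
    (hx : IsLocalMax (fun y => ‖Φ y‖ ^ 2 + m * ‖u y‖ ^ 2) x) : q ≤ m * β ^ 2 / 4 := by
  have := FiniteDimensional.complete ℝ E
  have h1 := (Lop_F he hA hA' hΦ hu hm hβ hW).trans (Lop_nonpos he (cm_F hΦ hu) hx)
  linarith

/-- closed manifolds: `q x` is the good term (`c ‖Φ x‖⁴ - a ‖Φ x‖² - r`) -/
theorem c0_closed [CompactSpace M] [Nonempty M] {m β : ℝ} {q : M → ℝ} (he : ∀ x a, VF I 1 (e a) x)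
    (hA : ∀ x, MC I A x) (hA' : ∀ x, MC I A' x) (hΦ : ∀ x, CM I 2 Φ x) (hu : ∀ x, CM I 2 u x)
    (hm : 0 ≤ m) (hβ : ∀ x, ‖u x - LA I e b A' u x‖ ≤ β)
    (hW : ∀ x, q x - gr2 I e A Φ x - m * gr2 I e A' u x ≤ ⟪LA I e b A Φ x, Φ x⟫_ℝ) :
    ∃ z, q z ≤ m * β ^ 2 / 4 ∧ ∀ x, ‖Φ x‖ ^ 2 ≤ ‖Φ z‖ ^ 2 + m * β ^ 2 := by
  obtain ⟨z, -, hz⟩ := isCompact_univ.exists_isMaxOn univ_nonempty
    (f := fun y => ‖Φ y‖ ^ 2 + m * ‖u y‖ ^ 2) fun y _ =>
      (cm_F (hΦ y) (hu y)).continuousAt.continuousWithinAt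
  refine ⟨z, c0_at_max (he z) (hA z) (hA' z) (hΦ z) (hu z) hm (hβ z) (hW z)
    (hz.isLocalMax univ_mem), fun x => ?_⟩
  have h0 : 0 ≤ β := (norm_nonneg _).trans (hβ z)
  have h1 : ‖u z‖ ≤ β := norm_le_of_LA0 (b := b) isCompact_univ (fun y _ => he y)
    (fun y _ => (hA' y).sm) (fun y _ a => ((hA' y).sk a).self_of_nhds)
    (fun y _ => (hu y).continuousAt.continuousWithinAt) (fun y _ => hu y) h0 (fun y _ => hβ y)
    (fun y _ h => absurd (by simp) h) z trivial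
  have h2 : ‖Φ x‖ ^ 2 + m * ‖u x‖ ^ 2 ≤ ‖Φ z‖ ^ 2 + m * ‖u z‖ ^ 2 := hz (mem_univ x)
  have h3 := mul_le_mul_of_nonneg_left (pow_le_pow_left₀ (norm_nonneg _) h1 2) hm
  nlinarith [mul_nonneg hm (sq_nonneg ‖u x‖)]

/-- the numerical step: `s = sup ‖Φ‖²`, `t = ‖Φ z‖²`; the constants may grow with `s` -/
theorem num_bound {c a r d s t : ℝ} (hc : 0 < c) (ha : 0 ≤ a) (hr : 0 ≤ r) (hd : 0 ≤ d)
    (hts : t ≤ s) (h1 : c * t ^ 2 ≤ a * t + r + c / 8 * s ^ 2)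
    (h2 : s ≤ t + d + s / 4) : s ≤ 8 * d + 16 * a / c + 16 * r / c + 1 := by
  by_contra h
  push Not at h
  have a1 : 0 ≤ 16 * a / c := by positivity
  have a2 : 0 ≤ 16 * r / c := by positivity
  have s1 : 1 < s := by linarith
  have b1 : 5 * s / 8 ≤ t := by linarith
  have b2 : 16 * a < c * s := by
    have : 16 * a / c < s := by linarith
    rwa [div_lt_iff₀' hc] at this
  have b3 : 16 * r < c * s := by
    have : 16 * r / c < s := by linarith
    rwa [div_lt_iff₀' hc] at this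
  have c1 : c * (5 * s / 8) ^ 2 ≤ c * t ^ 2 :=
    mul_le_mul_of_nonneg_left (pow_le_pow_left₀ (by linarith) b1 2) hc.le
  have c2 : a * t ≤ a * s := mul_le_mul_of_nonneg_left hts ha
  have c3 : 16 * a * s ≤ c * s * s := mul_le_mul_of_nonneg_right b2.le (by linarith)
  have c4 : c * s * 1 ≤ c * s * s := mul_le_mul_of_nonneg_left s1.le (by positivity)
  have c5 : 0 < c * s * s := by positivity
  nlinarith

/-- Keller-Osserman bound with a cut-off: no information at infinity is needed -/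
theorem ko {f χ : M → ℝ} {c R C : ℝ} (hc : 0 < c) (hR : 0 ≤ R) (hC : 0 ≤ C)
    (hK : HasCompactSupport χ) (h01 : ∀ x, 0 ≤ χ x ∧ χ x ≤ 1)
    (he : ∀ x ∈ tsupport χ, ∀ a, VF I 1 (e a) x) (hχ : ∀ x, CM I 2 χ x)
    (hD : ∀ x, 6 * ∑ a, dv I (e a) χ x ^ 2 + 2 * |Lop I e b χ x| ≤ C)
    (hf : ∀ x ∈ tsupport χ, CM I 2 f x)
    (hL : ∀ x ∈ tsupport χ, 0 < f x → c * f x ^ 2 - R ≤ Lop I e b f x) (x : M) :
    χ x ^ 2 * f x ≤ C / c + √(R / c) := by
  have := FiniteDimensional.complete ℝ E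
  have hpos : 0 ≤ C / c + √(R / c) := by positivity
  by_cases hx : x ∈ tsupport χ
  swap
  · rw [image_eq_zero_of_notMem_tsupport hx]; simpa using hpos
  have hg : ∀ y ∈ tsupport χ, CM I 2 (fun y => χ y * χ y * f y) y := fun y hy =>
    ((hχ y).mul (hχ y)).mul (hf y hy)
  obtain ⟨z, hz, hm⟩ := hK.isCompact.exists_isMaxOn ⟨x, hx⟩
    fun y hy => (hg y hy).continuousAt.continuousWithinAt
  rw [sq]
  refine (hm hx).trans (le_of_not_gt fun h => ?_)
  have hg0 : 0 < χ z * χ z * f z := hpos.trans_lt h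
  have hf0 : 0 < f z := (mul_pos_iff_of_pos_left (lt_of_le_of_ne (mul_self_nonneg _) fun h0 => by
    simp [← h0] at hg0)).1 hg0
  have hχ0 : 0 < χ z := (h01 z).1.lt_of_ne fun h0 => by simp [← h0] at hg0
  have hm' : IsLocalMax (fun y => χ y * χ y * f y) z := hm.isLocalMax
    (mem_of_superset ((hχ z).continuousAt.eventually_ne hχ0.ne') fun y hy => subset_tsupport _ hy)
  have h1 := Lop_nonpos (b := b) (he z hz) (hg z hz) hm'
  have χ1 := (hχ z).md one_le_two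
  have f1 := (hf z hz).md one_le_two
  have h2 : ∀ a, χ z * dv I (e a) f z = -2 * dv I (e a) χ z * f z := fun a => by
    have h3 := (dv_dv_nonpos (he z hz a) ((hg z hz).ev_md one_le_two) (md_dv (hg z hz) (he z hz a))
      hm').1
    rw [dv_mul (md_mul χ1 χ1) f1, dv_mul χ1 χ1] at h3
    refine mul_left_cancel₀ hχ0.ne' ?_
    linarith
  rw [Lop_mul_fun (f := fun y => χ y * χ y) (he z hz) ((hχ z).mul (hχ z)) (hf z hz),
    Lop_mul_fun (he z hz) (hχ z) (hχ z)] at h1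
  have h4 : ∑ a, dv I (e a) (fun y => χ y * χ y) z * dv I (e a) f z =
      -4 * (∑ a, dv I (e a) χ z ^ 2) * f z := by
    rw [Finset.mul_sum, Finset.sum_mul]
    refine Finset.sum_congr rfl fun a _ => ?_
    rw [dv_mul χ1 χ1]
    linear_combination 2 * dv I (e a) χ z * h2 a
  have h5 : ∑ a, dv I (e a) χ z * dv I (e a) χ z = ∑ a, dv I (e a) χ z ^ 2 := by simp [sq]
  rw [h4, h5] at h1
  have h6 := hL z hz hf0
  have h7 := hD z
  set G := ∑ a, dv I (e a) χ z ^ 2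
  set g := χ z * χ z * f z with hgz
  have h8 : -|Lop I e b χ z| ≤ Lop I e b χ z * χ z := by
    have := neg_abs_le (Lop I e b χ z * χ z)
    rw [abs_mul, abs_of_pos hχ0] at this
    nlinarith [abs_nonneg (Lop I e b χ z), (h01 z).2]
  -- `χ² (c f² - R) ≤ C f`
  have h9 : χ z * χ z * (c * f z ^ 2 - R) ≤ C * f z := by
    nlinarith [mul_le_mul_of_nonneg_left h6 (mul_pos hχ0 hχ0).le,
      mul_le_mul_of_nonneg_right h8 hf0.le, mul_le_mul_of_nonneg_right h7 hf0.le]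
  have h10 : χ z * χ z ≤ 1 := mul_le_one₀ (h01 z).2 (h01 z).1 (h01 z).2
  have h11 : c * g ^ 2 ≤ C * g + R := by
    have := mul_le_mul_of_nonneg_left h9 (mul_pos hχ0 hχ0).le
    have h12 : χ z * χ z * (χ z * χ z) * R ≤ R :=
      mul_le_of_le_one_left hR (mul_le_one₀ h10 (mul_pos hχ0 hχ0).le h10)
    rw [hgz]; nlinarith
  have h13 : √(R / c) ^ 2 * c = R := by rw [Real.sq_sqrt (by positivity)]; field_simp
  have h14 : C / c * c = C := by field_simp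
  have h15 := Real.sqrt_nonneg (R / c)
  have h16 : 0 ≤ C / c := by positivity
  set p := C / c
  set w := √(R / c)
  rw [← h13, ← h14] at h11
  have h17 : g ^ 2 ≤ p * g + w ^ 2 := le_of_mul_le_mul_left (by linarith) hc
  nlinarith

end Crest.Agent.X212.Mp86

end
end

-- ▼ part X212/Mp86/OY

/-!
# Row 212, layer AN (helper86): bounded subsolutions on noncompact manifolds (Omori-Yau)
-/

set_option autoImplicit false
set_option linter.unusedSectionVars false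
open Set Filter Topology Module
open scoped Manifold ContDiff InnerProductSpace

noncomputable section

namespace Crest.Agent.X212.Mp86

section free
variable {E H M : Type*} [NormedAddCommGroup E] [NormedSpace ℝ E]
  [TopologicalSpace H] {I : ModelWithCorners ℝ E H} [TopologicalSpace M] [ChartedSpace H M]
  [IsManifold I ∞ M]
  {ι : Type*} [Fintype ι] {e : ι → Π x : M, TangentSpace I x} {b : ι → M → ℝ}
  {U U' : Type*} [NormedAddCommGroup U] [InnerProductSpace ℝ U]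
  [NormedAddCommGroup U'] [InnerProductSpace ℝ U']
  {A : ι → M → U →L[ℝ] U} {A' : ι → M → U' →L[ℝ] U'}

variable (I e b) in
/-- bump functions with a uniform lower bound for `Lop` -/
def Bumps : Prop := ∃ C : ℝ, ∀ x : M, ∃ χ : M → ℝ, (∀ y, CM I 2 χ y) ∧ HasCompactSupport χ ∧
  (∀ y, χ y ≤ 1) ∧ χ x = 1 ∧ ∀ y, -C ≤ Lop I e b χ y

omit [IsManifold I ∞ M] in
theorem bumps_of_compact [CompactSpace M] : Bumps I e b :=
  ⟨0, fun _ => ⟨fun _ => 1, fun _ => contMDiffAt_const, HasCompactSupport.of_compactSpace _,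
    fun _ => le_rfl, rfl, fun y => by rw [Lop_const]; simp⟩⟩

variable [FiniteDimensional ℝ E] [BoundarylessManifold I M] [T2Space M]

/-- maximum principle for bounded functions, finitely many punctures -/
theorem maxp_bdd (hB : Bumps I e b) {S : Set M} (hS : S.Finite) (hd : S.Nonempty → 3 ≤ finrank ℝ E)
    {f : M → ℝ} {m C : ℝ} (he : ∀ x a, VF I 1 (e a) x)
    (hb : ∀ s ∈ S, ∀ a, ContinuousAt (b a) s)
    (hs : ∀ s ∈ S, Submodule.span ℝ (range fun a => (show E from e a s)) = ⊤)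
    (hf : ∀ x ∉ S, CM I 2 f x) (hC : ∀ x ∉ S, f x ≤ C)
    (hL : ∀ δ > 0, ∃ κ > 0, ∀ x ∉ S, m + δ ≤ f x → κ ≤ Lop I e b f x) : ∀ x ∉ S, f x ≤ m := by
  intro x₀ hx₀
  have := Manifold.locallyCompact_of_finiteDimensional (M := M) I
  obtain ⟨B, hB⟩ := hB
  have hbd : BddAbove (f '' Sᶜ) := ⟨C, by rintro _ ⟨y, hy, rfl⟩; exact hC y hy⟩
  have hne : (f '' Sᶜ).Nonempty := ⟨_, x₀, hx₀, rfl⟩
  set T := sSup (f '' Sᶜ)
  have hT : ∀ y ∉ S, f y ≤ T := fun y hy => le_csSup hbd ⟨y, hy, rfl⟩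
  refine (hT x₀ hx₀).trans (le_of_not_gt fun h => ?_)
  obtain ⟨κ, hκ, hL⟩ := hL ((T - m) / 2) (by linarith)
  obtain ⟨η, η0, η1, η2⟩ : ∃ η > 0, η ≤ (T - m) / 2 ∧ η * B < κ := by
    refine ⟨min ((T - m) / 2) (κ / (|B| + 1)), lt_min (by linarith) (by positivity),
      min_le_left _ _, ?_⟩
    have h1 : min ((T - m) / 2) (κ / (|B| + 1)) * B ≤ κ / (|B| + 1) * |B| :=
      (mul_le_mul_of_nonneg_left (le_abs_self B) (le_min (by linarith) (by positivity))).trans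
        (mul_le_mul_of_nonneg_right (min_le_right _ _) (abs_nonneg B))
    refine h1.trans_lt ?_
    rw [div_mul_eq_mul_div, div_lt_iff₀ (by positivity)]; nlinarith
  obtain ⟨_, ⟨x, hx, rfl⟩, hx1⟩ := exists_lt_of_lt_csSup hne (show T - η < T by linarith)
  obtain ⟨χ, c1, c2, c3, c4, c5⟩ := hB x
  obtain ⟨K, hK, h2⟩ := exists_compact_superset (c2.isCompact.union hS.isCompact)
  have hxK : x ∈ K := interior_subset (h2 (Or.inl (subset_tsupport _ (by simp [c4]))))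
  have g2 : ∀ y ∉ S, CM I 2 (fun y => f y + η * χ y) y := fun y hy =>
    (hf y hy).add (contMDiffAt_const.mul (c1 y))
  have gL : ∀ y ∉ S, T < f y + η * χ y → 0 < Lop I e b (fun y => f y + η * χ y) y := by
    intro y hy h3
    rw [Lop_add (w := fun y => η * χ y) (he y) (hf y hy) (contMDiffAt_const.mul (c1 y)),
      Lop_mul _ (he y) (c1 y)]
    have h4 := hL y hy (by nlinarith [c3 y])
    nlinarith [c5 y]
  have gfr : ∀ y ∈ K, y ∉ interior K → f y + η * χ y ≤ T := fun y _ hi => by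
    rw [image_eq_zero_of_notMem_tsupport fun h => hi (h2 (Or.inl h)), mul_zero, add_zero]
    exact hT y fun h => hi (h2 (Or.inr h))
  have key : f x + η * χ x ≤ T := by
    rcases S.eq_empty_or_nonempty with rfl | hn
    · exact maxp0 (b := b) (f := fun y => f y + η * χ y) hK
        (fun y _ => (g2 y (by simp)).continuousAt.continuousWithinAt) (fun y _ => he y)
        (fun y _ _ => g2 y (by simp)) (fun y _ h3 _ => gL y (by simp) h3) gfr x hxK
    · exact maxp (b := b) (f := fun y => f y + η * χ y) (C := T + η) (hd hn) hK hS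
        (fun s hs' => h2 (Or.inr hs')) (fun y _ => he y) hb hs (fun y hy => g2 y hy.2)
        (fun y hy => by nlinarith [hT y hy.2, c3 y]) (fun y hy => gL y hy.2) gfr x ⟨hxK, hx⟩
  rw [c4] at key
  linarith

/-- sup bound for bounded solutions of `u - LA u = s` -/
theorem norm_le_of_bdd (hB : Bumps I e b) {S : Set M} (hS : S.Finite)
    (hd : S.Nonempty → 3 ≤ finrank ℝ E) {u : M → U} {m C : ℝ} (he : ∀ x a, VF I 1 (e a) x)
    (hb : ∀ s ∈ S, ∀ a, ContinuousAt (b a) s)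
    (hs : ∀ s ∈ S, Submodule.span ℝ (range fun a => (show E from e a s)) = ⊤)
    (hA : ∀ x ∉ S, MC I A x) (hu : ∀ x ∉ S, CM I 2 u x) (hC : ∀ x ∉ S, ‖u x‖ ≤ C)
    (hm : ∀ x ∉ S, ‖u x - LA I e b A u x‖ ≤ m) : ∀ x ∉ S, ‖u x‖ ≤ m := by
  intro x hx
  have h0 : 0 ≤ m := (norm_nonneg _).trans (hm x hx)
  refine le_of_sq (maxp_bdd (f := fun y => ‖u y‖ ^ 2) (C := C ^ 2) hB hS hd he hb hs
    (fun y hy => cm_normSq (hu y hy)) (fun y hy => pow_le_pow_left₀ (norm_nonneg _) (hC y hy) 2)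
    (fun δ hδ => ⟨δ, hδ, fun y hy h => ?_⟩) x hx) h0
  rw [Lop_normSq (he y) (hA y hy).sm (hA y hy).sk (hu y hy)]
  have h2 := real_inner_le_norm (u y - LA I e b A u y) (u y)
  rw [inner_sub_left, real_inner_self_eq_norm_sq] at h2
  have h3 : 0 ≤ ∑ a, ‖cd I (e a) (A a) u y‖ ^ 2 := Finset.sum_nonneg fun _ _ => sq_nonneg _
  nlinarith [mul_le_mul_of_nonneg_right (hm y hy) (norm_nonneg (u y)), sq_nonneg (‖u y‖ - m)]

/-- uniqueness of bounded solutions of `u - LA u = s` -/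
theorem eq_of_bdd (hB : Bumps I e b) {S : Set M} (hS : S.Finite)
    (hd : S.Nonempty → 3 ≤ finrank ℝ E) {u w : M → U} {C : ℝ} (he : ∀ x a, VF I 1 (e a) x)
    (hb : ∀ s ∈ S, ∀ a, ContinuousAt (b a) s)
    (hs : ∀ s ∈ S, Submodule.span ℝ (range fun a => (show E from e a s)) = ⊤)
    (hA : ∀ x ∉ S, MC I A x) (hu : ∀ x ∉ S, CM I 2 u x) (hw : ∀ x ∉ S, CM I 2 w x)
    (hC : ∀ x ∉ S, ‖u x - w x‖ ≤ C)
    (h : ∀ x ∉ S, u x - LA I e b A u x = w x - LA I e b A w x) : ∀ x ∉ S, u x = w x := by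
  intro x hx
  refine sub_eq_zero.1 (norm_le_zero_iff.1 (norm_le_of_bdd (A := A) (u := fun y => u y - w y)
    hB hS hd he hb hs hA (fun y hy => (hu y hy).sub (hw y hy)) hC (fun y hy => ?_) x hx))
  rw [LA_sub (he y) (hA y hy).sm (hu y hy) (hw y hy), sub_sub_sub_comm, h y hy, sub_self, norm_zero]

/-- `C⁰` bound for bounded configurations: `c t² - a t - r` is the good term -/
theorem c0_bdd (hB : Bumps I e b) {Φ : M → U} {u : M → U'} {m β c a r C T : ℝ}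
    (he : ∀ x a, VF I 1 (e a) x) (hA : ∀ x, MC I A x) (hA' : ∀ x, MC I A' x)
    (hΦ : ∀ x, CM I 2 Φ x) (hu : ∀ x, CM I 2 u x) (hC : ∀ x, ‖Φ x‖ ≤ C) (hC' : ∀ x, ‖u x‖ ≤ C)
    (hm : 0 ≤ m) (hβ : ∀ x, ‖u x - LA I e b A' u x‖ ≤ β) (hc : 0 < c)
    (hW : ∀ x, c * (‖Φ x‖ ^ 2) ^ 2 - a * ‖Φ x‖ ^ 2 - r - gr2 I e A Φ x - m * gr2 I e A' u x ≤
      ⟪LA I e b A Φ x, Φ x⟫_ℝ)
    (hT0 : 0 ≤ T) (hTa : a ≤ c * T) (hT : r + m * β ^ 2 / 4 ≤ c * T ^ 2 - a * T) (x : M) :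
    ‖Φ x‖ ^ 2 ≤ T + m * β ^ 2 := by
  have h1 : ∀ y, ‖u y‖ ≤ β := fun y => norm_le_of_bdd hB finite_empty (by simp) he (by simp)
    (by simp) (fun y _ => hA' y) (fun y _ => hu y) (fun y _ => hC' y) (fun y _ => hβ y) y (by simp)
  have h2 := maxp_bdd (f := fun y => ‖Φ y‖ ^ 2 + m * ‖u y‖ ^ 2) (m := T + m * β ^ 2)
    (C := C ^ 2 + m * C ^ 2) hB finite_empty (by simp) he (by simp) (by simp)
    (fun y _ => cm_F (hΦ y) (hu y))
    (fun y _ => add_le_add (pow_le_pow_left₀ (norm_nonneg _) (hC y) 2)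
      (mul_le_mul_of_nonneg_left (pow_le_pow_left₀ (norm_nonneg _) (hC' y) 2) hm))
    (fun δ hδ => ⟨2 * (c * δ ^ 2), by positivity, fun y _ h => ?_⟩) x (by simp)
  · nlinarith [mul_nonneg hm (sq_nonneg ‖u x‖)]
  · refine le_trans ?_ (Lop_F (he y) (hA y) (hA' y) (hΦ y) (hu y) hm (hβ y) (hW y))
    have h3 := mul_le_mul_of_nonneg_left (pow_le_pow_left₀ (norm_nonneg _) (h1 y) 2) hm
    have h4 : T + δ ≤ ‖Φ y‖ ^ 2 := by linarith
    set t := ‖Φ y‖ ^ 2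
    have h5 : 0 ≤ (t - T) * (c * (t + T) - a) - c * δ ^ 2 := by
      have h6 : c * δ ≤ c * (t + T) - a := by nlinarith
      nlinarith [mul_le_mul (show δ ≤ t - T by linarith) h6 (by positivity) (by linarith)]
    nlinarith

end free

section An
open An
variable {E : Type} [NormedAddCommGroup E] [NormedSpace ℝ E] [FiniteDimensional ℝ E]
  [MeasurableSpace E] [BorelSpace E]
  {HM : Type} [TopologicalSpace HM] {I : ModelWithCorners ℝ E HM}
  {M : Type} [TopologicalSpace M] [ChartedSpace HM M] [IsManifold I ∞ M]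
  [MeasurableSpace M] {ι : Type} [Fintype ι]

theorem vf (F : Pre I M ι) (x : M) (a : ι) : VF I 1 (F.e a) x := (F.sm a x).of_le (by simp)

theorem cm2 {N : Type} [NormedAddCommGroup N] [NormedSpace ℝ N] {f : M → N} (h : Sm I f) (x : M) :
    CM I 2 f x := (h x).of_le two_le

theorem cm1 {N : Type} [NormedAddCommGroup N] [NormedSpace ℝ N] {f : M → N} (h : Sm I f) (x : M) :
    CM I 1 f x := (h x).of_le (by simp)

theorem abs_Lop_le (F : Fr I M ι) {C : ℕ → ℝ} (h : F.Tame C) {χ : M → ℝ} (hχ : F.CBs χ C) (y : M) :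
    |Lop I F.e F.dv χ y| ≤ Fintype.card ι * (C 2 + C 0 * C 2) := by
  refine (Finset.abs_sum_le_sum_abs _ _).trans ((Finset.sum_le_card_nsmul _ _ _ fun a _ => ?_).trans
    (by rw [nsmul_eq_mul, Finset.card_univ]))
  have h1 : |dv I (F.e a) (dv I (F.e a) χ) y| ≤ C 2 := hχ.2 2 [a, a] le_rfl y
  have h2 : |dv I (F.e a) χ y| ≤ C 2 := hχ.2 2 [a] one_le_two y
  have h3 : |F.dv a y| ≤ C 0 := (h.dv a).2 0 [] le_rfl y
  refine (abs_add_le _ _).trans (add_le_add h1 ?_)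
  rw [smul_eq_mul, abs_mul]
  exact mul_le_mul h3 h2 (abs_nonneg _) ((abs_nonneg _).trans h3)

theorem bumps_of_tame (F : Fr I M ι) {C : ℕ → ℝ} (h : F.Tame C) : Bumps I F.e F.dv := by
  refine ⟨Fintype.card ι * (C 2 + C 0 * C 2), fun x => ?_⟩
  obtain ⟨χ, h1, h2, h3, h4⟩ := h.exh {x} isCompact_singleton
  exact ⟨χ, cm2 h1.1, h2, fun y => (h3 y).2, h4 x rfl, fun y => (abs_le.1 (abs_Lop_le F h h1 y)).1⟩

end An

end Crest.Agent.X212.Mp86

end
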