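import Crest.Agent.X212.Mp86.Lev
import Crest.Agent.X212.An.Gauge
import Crest.Agent.X212.Eqv71.Sec

-- ▼ part X212/Mp86/Mos
section

/-!
# Row 212, layer AN (helper86): Kato inequality and `L^p` bounds for `u + ∇^*∇ u = s`

The constants only depend on the Sobolev constant `L4`, not on the connection.
-/

set_option autoImplicit false
set_option linter.unusedSectionVars false
open Set Filter Topology Module MeasureTheory
open scoped Manifold ContDiff InnerProductSpace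

noncomputable section

namespace Crest.Agent.X212.Mp86

section free
variable {E H M : Type*} [NormedAddCommGroup E] [NormedSpace ℝ E]
  [TopologicalSpace H] {I : ModelWithCorners ℝ E H} [TopologicalSpace M] [ChartedSpace H M]
  [IsManifold I ∞ M]
  {ι : Type*} [Fintype ι] {e : ι → Π x : M, TangentSpace I x} {b : ι → M → ℝ}
  {U : Type*} [NormedAddCommGroup U] [InnerProductSpace ℝ U] {A : ι → M → U →L[ℝ] U}
  {u : M → U} {x : M}

/-- first order Kato inequality for `‖u‖²` -/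
theorem sum_dv_normSq_le (hA : ∀ a s t, ⟪A a x s, t⟫_ℝ = -⟪s, A a x t⟫_ℝ) (hu : MD I u x) :
    ∑ a, dv I (e a) (fun y => ‖u y‖ ^ 2) x ^ 2 ≤ 4 * ‖u x‖ ^ 2 * gr2 I e A u x := by
  unfold gr2
  rw [Finset.mul_sum]
  refine Finset.sum_le_sum fun a _ => ?_
  have h1 := dv_inner_cd (v := e a) (hA a) hu hu
  simp only [real_inner_self_eq_norm_sq] at h1
  rw [h1, real_inner_comm (cd I (e a) (A a) u x)]
  have h2 := abs_real_inner_le_norm (cd I (e a) (A a) u x) (u x)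
  have h3 := pow_le_pow_left₀ (abs_nonneg _) h2 2
  rw [sq_abs] at h3
  nlinarith

/-- Kato inequality for `√(‖u‖² + δ²)` -/
theorem kato {δ : ℝ} (hδ : 0 < δ) (he : ∀ a, VF I 1 (e a) x) (hA : MC I A x) (hu : CM I 2 u x) :
    ⟪LA I e b A u x, u x⟫_ℝ / √(‖u x‖ ^ 2 + δ ^ 2) ≤
      Lop I e b (fun y => √(‖u y‖ ^ 2 + δ ^ 2)) x := by
  have p : ∀ t : ℝ, 0 < t + δ ^ 2 →
      HasDerivAt (fun t => √(t + δ ^ 2)) (1 / (2 * √(t + δ ^ 2))) t := fun t ht =>
    ((hasDerivAt_id t).add_const _).sqrt ht.ne'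
  have p0 : 0 < ‖u x‖ ^ 2 + δ ^ 2 := by positivity
  set W := √(‖u x‖ ^ 2 + δ ^ 2) with hW
  have W0 : 0 < W := Real.sqrt_pos.2 p0
  have W2 : W ^ 2 = ‖u x‖ ^ 2 + δ ^ 2 := Real.sq_sqrt p0.le
  have q : HasDerivAt (fun t => 1 / (2 * √(t + δ ^ 2))) (-(1 / (4 * W ^ 3))) (‖u x‖ ^ 2) := by
    have := (hasDerivAt_const _ (1 : ℝ)).div ((p _ p0).const_mul 2) (by positivity)
    refine this.congr_deriv ?_
    rw [← hW]; field_simp; ring
  rw [Lop_comp (Q := fun y => ‖u y‖ ^ 2) (g := fun t => √(t + δ ^ 2)) he (cm_normSq hu)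
    (((continuous_id.add continuous_const).continuousAt.eventually (lt_mem_nhds p0)).mono p) q,
    Lop_normSq he hA.sm hA.sk hu, ← hW]
  have h1 := sum_dv_normSq_le (e := e) (fun a => (hA.sk a).self_of_nhds) (hu.md one_le_two)
  have h2 : 0 ≤ gr2 I e A u x := gr2_nonneg
  have h3 : 1 / (4 * W ^ 3) * ∑ a, dv I (e a) (fun y => ‖u y‖ ^ 2) x ^ 2 ≤ gr2 I e A u x / W := by
    rw [one_div, inv_mul_le_iff₀ (by positivity)]
    have : 4 * W ^ 3 * (gr2 I e A u x / W) = 4 * W ^ 2 * gr2 I e A u x := by field_simp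
    rw [this, W2]
    nlinarith [mul_nonneg (sq_nonneg δ) h2]
  have h4 : 1 / (2 * W) * (2 * ⟪LA I e b A u x, u x⟫_ℝ + 2 * gr2 I e A u x) =
      ⟪LA I e b A u x, u x⟫_ℝ / W + gr2 I e A u x / W := by field_simp
  unfold gr2 at h3 h4
  linarith

/-- `√(‖u‖² + δ²) - δ` is a subsolution -/
theorem kato_sub {δ : ℝ} (hδ : 0 < δ) (he : ∀ a, VF I 1 (e a) x) (hA : MC I A x)
    (hu : CM I 2 u x) : √(‖u x‖ ^ 2 + δ ^ 2) - δ - ‖u x - LA I e b A u x‖ ≤
      Lop I e b (fun y => √(‖u y‖ ^ 2 + δ ^ 2)) x := by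
  refine le_trans ?_ (kato hδ he hA hu)
  have p0 : 0 < ‖u x‖ ^ 2 + δ ^ 2 := by positivity
  set W := √(‖u x‖ ^ 2 + δ ^ 2)
  have W0 : 0 < W := Real.sqrt_pos.2 p0
  have W2 : W ^ 2 = ‖u x‖ ^ 2 + δ ^ 2 := Real.sq_sqrt p0.le
  have a1 : δ ≤ W := Real.le_sqrt_of_sq_le (by nlinarith)
  have a2 : ‖u x‖ ≤ W := Real.le_sqrt_of_sq_le (by nlinarith)
  have h2 := real_inner_le_norm (u x - LA I e b A u x) (u x)
  rw [inner_sub_left, real_inner_self_eq_norm_sq] at h2
  rw [le_div_iff₀ W0]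
  nlinarith [mul_le_mul_of_nonneg_left a2 (norm_nonneg (u x - LA I e b A u x)),
    mul_le_mul_of_nonneg_left a1 hδ.le]

end free

open An
variable {E : Type} [NormedAddCommGroup E] [NormedSpace ℝ E] [FiniteDimensional ℝ E]
  [MeasurableSpace E] [BorelSpace E]
  {HM : Type} [TopologicalSpace HM] {I : ModelWithCorners ℝ E HM}
  {M : Type} [TopologicalSpace M] [ChartedSpace HM M] [IsManifold I ∞ M]
  [MeasurableSpace M] {ι : Type} [Fintype ι] [T2Space M] [BorelSpace M]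
  {V : Type} [NormedAddCommGroup V] [InnerProductSpace ℝ V]
  {F : Fr I M ι} {A : ι → M → V →L[ℝ] V} {u s : M → V}

theorem LA_eq_lap (x : M) : LA I F.e F.dv A u x = -Wz78.lap I F.e F.dv A u x := (neg_neg _).symm

theorem mc_of (hs : ∀ a, Sm I (A a)) (hA : ∀ a x, Wz78.Skew (A a x)) (x : M) : MC I A x :=
  ⟨fun a => cm1 (hs a) x, fun a => .of_forall fun y => hA a y⟩

/-- a smooth solution of `u + ∇^*∇ u = s` tending to zero at infinity -/
structure Sol (F : Fr I M ι) (A : ι → M → V →L[ℝ] V) (u s : M → V) : Prop where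
  sA : ∀ a, Sm I (A a)
  sk : ∀ a x, Wz78.Skew (A a x)
  su : Sm I u
  eq : ∀ x, u x + Wz78.lap I F.e F.dv A u x = s x
  lim : Tendsto u (cocompact M) (𝓝 0)

theorem Sol.sm_s (h : Sol F A u s) : Sm I s := by
  rw [← funext h.eq]; exact h.su.add (Wz78.sm_lap h.sA h.su)

theorem Sol.sub (h : Sol F A u s) {δ : ℝ} (hδ : 0 < δ) :
    Sub F (fun x => √(‖u x‖ ^ 2 + δ ^ 2) - δ) fun x => ‖s x‖ := by
  have h1 : Sm I fun x => √(‖u x‖ ^ 2 + δ ^ 2) := fun x =>
    (Real.contDiffAt_sqrt (by positivity)).comp_contMDiffAt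
      ((cm_normSq (h.su x)).add contMDiffAt_const)
  refine ⟨h1.sub contMDiff_const, fun t ht => ?_, fun x => ?_, h.sm_s.continuous.norm⟩
  · obtain ⟨K, hK, h2⟩ := mem_cocompact.1 (NormedAddGroup.tendsto_nhds_zero.1 h.lim t ht)
    refine hK.of_isClosed_subset (isClosed_le continuous_const
      (h1.continuous.sub continuous_const)) fun x (hx : t ≤ _) => by_contra fun h3 => ?_
    have h4 : ‖u x‖ < t := h2 h3
    have h5 : √(‖u x‖ ^ 2 + δ ^ 2) ≤ ‖u x‖ + δ :=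
      Real.sqrt_le_iff.2 ⟨by positivity, by nlinarith [mul_nonneg (norm_nonneg (u x)) hδ.le]⟩
    linarith
  · rw [Lop_sub (vf F.toPre x) (cm2 h1 x) contMDiffAt_const, Lop_const, sub_zero, ← h.eq x,
      ← sub_neg_eq_add (u x), ← LA_eq_lap]
    exact kato_sub hδ (vf F.toPre x) (mc_of h.sA h.sk x) (cm2 h.su x)

theorem norm_le_sqrt (a : V) (δ : ℝ) : ‖a‖ ≤ √(‖a‖ ^ 2 + δ ^ 2) :=
  Real.le_sqrt_of_sq_le (by nlinarith)

/-- `L⁴ → L^∞` -/
theorem Sol.sup_le [F.μ.IsOpenPosMeasure] (h : Sol F A u s) {S β : ℝ} (hS : L4 F.toPre S)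
    (hS0 : 0 ≤ S) (hβ0 : 0 ≤ β) (hi : Integrable (fun x => ‖s x‖ ^ 4) F.μ)
    (hβ : ∫ x, ‖s x‖ ^ 4 ∂F.μ ≤ β ^ 4) (x : M) : ‖u x‖ ≤ (3 + 8 * S ^ 2) * β := by
  have key : ∀ δ > 0, ‖u x‖ ≤ (3 + 8 * (S + δ) ^ 2) * (β + δ) + δ := fun δ hδ => by
    have := (h.sub hδ).en.sup_le (hS.mono (S' := S + δ) (by linarith)) (by linarith)
      (β := β + δ) (by linarith) hi (hβ.trans (pow_le_pow_left₀ hβ0 (by linarith) 4)) x
    linarith [norm_le_sqrt (u x) δ]
  have lim : Tendsto (fun δ : ℝ => (3 + 8 * (S + δ) ^ 2) * (β + δ) + δ) (𝓝[>] 0)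
      (𝓝 ((3 + 8 * (S + 0) ^ 2) * (β + 0) + 0)) :=
    Tendsto.mono_left (Continuous.tendsto (by fun_prop) 0) nhdsWithin_le_nhds
  simp only [add_zero] at lim
  exact ge_of_tendsto lim (eventually_nhdsWithin_of_forall key)

/-- Fatou lemma in the form used below -/
theorem fatou {X : Type*} [MeasurableSpace X] {μ : Measure X} {g : X → ℝ} {f : ℕ → X → ℝ} {B : ℝ}
    (hg : Measurable g) (g0 : ∀ x, 0 ≤ g x) (hm : ∀ n, Measurable (f n))
    (hi : ∀ n, Integrable (f n) μ) (f0 : ∀ n x, 0 ≤ f n x) (hB : ∀ n, ∫ x, f n x ∂μ ≤ B)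
    (hl : ∀ x, Tendsto (fun n => f n x) atTop (𝓝 (g x))) :
    Integrable g μ ∧ ∫ x, g x ∂μ ≤ B := by
  have B0 : 0 ≤ B := (integral_nonneg (f0 0)).trans (hB 0)
  have h1 : ∫⁻ x, ENNReal.ofReal (g x) ∂μ ≤ ENNReal.ofReal B := by
    have h2 := lintegral_liminf_le (μ := μ) (u := atTop)
      (f := fun n x => ENNReal.ofReal (f n x)) fun n => (hm n).ennreal_ofReal
    have h3 : ∀ x, liminf (fun n => ENNReal.ofReal (f n x)) atTop = ENNReal.ofReal (g x) :=
      fun x => (ENNReal.tendsto_ofReal (hl x)).liminf_eq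
    simp only [h3] at h2
    refine h2.trans (liminf_le_of_frequently_le' (.of_forall fun n => ?_))
    rw [← ofReal_integral_eq_lintegral_ofReal (hi n) (.of_forall (f0 n))]
    exact ENNReal.ofReal_le_ofReal (hB n)
  have h4 : Integrable g μ := ⟨hg.aestronglyMeasurable,
    (hasFiniteIntegral_iff_ofReal (.of_forall g0)).2 (h1.trans_lt ENNReal.ofReal_lt_top)⟩
  refine ⟨h4, ?_⟩
  rw [← ofReal_integral_eq_lintegral_ofReal h4 (.of_forall g0)] at h1
  exact (ENNReal.ofReal_le_ofReal_iff B0).1 h1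

/-- `L² → L⁴` -/
theorem Sol.l4_le (h : Sol F A u s) {S β : ℝ} (hS : L4 F.toPre S) (hS0 : 0 ≤ S) (hβ0 : 0 ≤ β)
    (hi : Integrable (fun x => ‖s x‖ ^ 2) F.μ) (hβ : ∫ x, ‖s x‖ ^ 2 ∂F.μ ≤ β ^ 2) :
    Integrable (fun x => ‖u x‖ ^ 4) F.μ ∧ ∫ x, ‖u x‖ ^ 4 ∂F.μ ≤ (S * β ^ 2) ^ 2 := by
  have uc := h.su.continuous
  let δ : ℕ → ℝ := fun n => 1 / (n + 1)
  have δ0 : ∀ n, 0 < δ n := fun n => Nat.one_div_pos_of_nat
  have fc : ∀ n, Continuous fun x => max (‖u x‖ - 3 * δ n) 0 ^ 4 := fun n => by fun_prop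
  have key : ∀ n, Integrable (fun x => max (‖u x‖ - 3 * δ n) 0 ^ 4) F.μ ∧
      ∫ x, max (‖u x‖ - 3 * δ n) 0 ^ 4 ∂F.μ ≤ (S * β ^ 2) ^ 2 := fun n => by
    obtain ⟨v, a1, a2, a3, -, a5⟩ := (h.sub (δ0 n)).en.l4_le hS hS0 hβ0 hi hβ (δ0 n) (δ0 n)
    have i4 : Integrable (fun x => v x ^ 4) F.μ := integ_pow a1 a2 (by norm_num)
    have le : ∀ x, max (‖u x‖ - 3 * δ n) 0 ^ 4 ≤ v x ^ 4 := fun x => by
      rcases le_total (‖u x‖ - 3 * δ n) 0 with h1 | h1
      · rw [max_eq_right h1]; simp; positivity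
      · rw [max_eq_left h1]
        exact pow_le_pow_left₀ h1 (by linarith [a3 x, norm_le_sqrt (u x) (δ n)]) 4
    have i5 := i4.mono' (fc n).aestronglyMeasurable (.of_forall fun x => by
      rw [Real.norm_of_nonneg (by positivity)]; exact le x)
    exact ⟨i5, (integral_mono i5 i4 le).trans a5⟩
  refine fatou (uc.norm.pow 4).measurable (fun x => by positivity) (fun n => (fc n).measurable)
    (fun n => (key n).1) (fun n x => by positivity) (fun n => (key n).2) fun x => ?_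
  have := (((tendsto_const_nhds (x := ‖u x‖)).sub
    ((tendsto_one_div_add_atTop_nhds_zero_nat (𝕜 := ℝ)).const_mul 3)).max
    (tendsto_const_nhds (x := (0 : ℝ)))).pow 4
  simpa [δ] using this

/-- `‖G G s‖_∞ ≤ K ‖s‖_{L²}` with `K` depending only on the Sobolev constant -/
theorem Sol.sup_GG [F.μ.IsOpenPosMeasure] {v : M → V} (h : Sol F A u s) (h' : Sol F A v u)
    {S β : ℝ} (hS : L4 F.toPre S) (hS0 : 0 ≤ S) (hβ0 : 0 ≤ β)
    (hi : Integrable (fun x => ‖s x‖ ^ 2) F.μ) (hβ : ∫ x, ‖s x‖ ^ 2 ∂F.μ ≤ β ^ 2) (x : M) :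
    ‖v x‖ ≤ (3 + 8 * S ^ 2) * (√S * β) := by
  obtain ⟨h1, h2⟩ := h.l4_le hS hS0 hβ0 hi hβ
  refine h'.sup_le hS hS0 (by positivity) h1 (h2.trans_eq ?_) x
  rw [mul_pow √S, show 4 = 2 * 2 from rfl, pow_mul, Real.sq_sqrt hS0]; ring

end Crest.Agent.X212.Mp86

end
end

-- ▼ part X212/Mp86/Res

/-!
# Row 212, layer AN (helper86): the resolvent `Fr.res` on functions

Uniqueness, sup bounds, linearity, intertwiners.  No existence statement is used: `res` is either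
a solution or zero.
-/

set_option autoImplicit false
set_option linter.unusedSectionVars false
open Set Filter Topology Module MeasureTheory
open scoped Manifold ContDiff InnerProductSpace

noncomputable section

namespace Crest.Agent.X212.Mp86
open An Wz78 Eqv71

variable {E : Type} [NormedAddCommGroup E] [NormedSpace ℝ E] [FiniteDimensional ℝ E]
  [MeasurableSpace E] [BorelSpace E]
  {HM : Type} [TopologicalSpace HM] {I : ModelWithCorners ℝ E HM}
  {M : Type} [TopologicalSpace M] [ChartedSpace HM M] [IsManifold I ∞ M]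
  [MeasurableSpace M] {ι : Type} [Fintype ι]
  {V : Type} [NormedAddCommGroup V] [InnerProductSpace ℝ V]
  {V' : Type} [NormedAddCommGroup V'] [InnerProductSpace ℝ V']
  {F : Fr I M ι} {A : ι → M → V →L[ℝ] V} {A' : ι → M → V' →L[ℝ] V'} {u w s t : M → V}

variable (I) in
/-- a smooth metric connection form -/
structure Mc (A : ι → M → V →L[ℝ] V) : Prop where
  sm : ∀ a, Sm I (A a)
  sk : ∀ a x, Skew (A a x)

theorem Mc.mc (h : Mc I A) (x : M) : MC I A x := ⟨fun a => cm1 (h.sm a) x,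
  fun a => .of_forall fun y => h.sk a y⟩

theorem res_spec (h : ∃ u, F.IsRes A s u) : F.IsRes A s (F.res A s) := by
  rw [Fr.res, dif_pos h]; exact h.choose_spec

theorem res_cases (F : Fr I M ι) (A : ι → M → V →L[ℝ] V) (s : M → V) :
    F.IsRes A s (F.res A s) ∨ ((¬∃ u, F.IsRes A s u) ∧ F.res A s = 0) := by
  by_cases h : ∃ u, F.IsRes A s u
  · exact .inl (res_spec h)
  · exact .inr ⟨h, by rw [Fr.res, dif_neg h]⟩

theorem sm_res (F : Fr I M ι) (A : ι → M → V →L[ℝ] V) (s : M → V) : Sm I (F.res A s) := by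
  rcases res_cases F A s with h | h
  · exact h.1
  · rw [h.2]; exact contMDiff_const

theorem bdd_res (F : Fr I M ι) (A : ι → M → V →L[ℝ] V) (s : M → V) :
    ∃ C, ∀ x, ‖F.res A s x‖ ≤ C := by
  rcases res_cases F A s with h | h
  · exact h.2.1
  · exact ⟨0, fun x => by simp [h.2]⟩

theorem lap_zero (x : M) : lap I F.e F.dv A (0 : M → V) x = 0 := by
  have h : ∀ a, nab I F.e A a (0 : M → V) = 0 := fun a => funext fun y => by
    simp only [nab, Pi.zero_apply, map_zero, add_zero]; exact dv_const (0 : V)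
  simp [lap, h]

theorem isRes_zero : F.IsRes A 0 0 :=
  ⟨contMDiff_const, ⟨0, fun _ => by simp⟩, fun x => by simp [lap_zero]⟩

/-- `res s` solves the equation with a right hand side `s` or `0` -/
theorem res_rhs (F : Fr I M ι) (A : ι → M → V →L[ℝ] V) (s : M → V) :
    ∃ t, F.IsRes A t (F.res A s) ∧ ∀ x, ‖t x‖ ≤ ‖s x‖ := by
  rcases res_cases F A s with h | h
  · exact ⟨s, h, fun _ => le_rfl⟩
  · exact ⟨0, by rw [h.2]; exact isRes_zero, fun _ => by simp⟩

theorem lap_add (hA : ∀ a, Sm I (A a)) (hu : Sm I u) (hw : Sm I w) (x : M) :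
    lap I F.e F.dv A (fun y => u y + w y) x = lap I F.e F.dv A u x + lap I F.e F.dv A w x := by
  have h : ∀ a, nab I F.e A a (fun y => u y + w y) =
      fun y => nab I F.e A a u y + nab I F.e A a w y := fun a => funext fun y =>
    nab_add a (hu y) (hw y)
  simp only [lap, h, fun a => nab_add (e := F.e) (A := A) a (sm_nab (F := F) hA a hu x)
    (sm_nab (F := F) hA a hw x), smul_add, Finset.sum_add_distrib]
  abel

theorem sm_isRes (hA : ∀ a, Sm I (A a)) (h : F.IsRes A s u) : Sm I s := by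
  rw [← funext h.2.2]; exact h.1.add (sm_lap hA h.1)

theorem isRes_add (hA : ∀ a, Sm I (A a)) (h : F.IsRes A s u) (k : F.IsRes A t w) :
    F.IsRes A (fun x => s x + t x) fun x => u x + w x := by
  obtain ⟨h1, ⟨C, h2⟩, h3⟩ := h
  obtain ⟨k1, ⟨C', k2⟩, k3⟩ := k
  refine ⟨h1.add k1, ⟨C + C', fun x => (norm_add_le _ _).trans (add_le_add (h2 x) (k2 x))⟩,
    fun x => ?_⟩
  simp only [lap_add hA h1 k1, ← h3, ← k3]; abel

/-- a bounded intertwiner maps solutions to solutions -/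
theorem isRes_map {T : M → V →L[ℝ] V'} (hA : ∀ a, Sm I (A a)) (hT : Sm I T)
    (hb : ∃ C, ∀ x, ‖T x‖ ≤ C) (hi : ∀ x, Itw I F.e A A' T x) (h : F.IsRes A s u) :
    F.IsRes A' (fun x => T x (s x)) fun x => T x (u x) := by
  obtain ⟨h1, ⟨C, h2⟩, h3⟩ := h
  obtain ⟨C', hb⟩ := hb
  refine ⟨hT.clm_apply h1, ⟨C' * C, fun x => ((T x).le_opNorm _).trans
    (mul_le_mul (hb x) (h2 x) (norm_nonneg _) ((norm_nonneg _).trans (hb x)))⟩, fun x => ?_⟩
  rw [itw_lap (frm F) (.of_forall hi) (hT x) (fun a => hA a x) (h1 x), ← map_add, h3]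

theorem isRes_smul (hA : ∀ a, Sm I (A a)) (r : ℝ) (h : F.IsRes A s u) :
    F.IsRes A (fun x => r • s x) fun x => r • u x :=
  isRes_map (T := fun _ => r • ContinuousLinearMap.id ℝ V) hA contMDiff_const ⟨_, fun _ => le_rfl⟩
    (fun x a => by rw [dv_const]; ext v; simp) h

theorem isRes_sum {κ : Type*} (S : Finset κ) {s u : κ → M → V} (hA : ∀ a, Sm I (A a))
    (h : ∀ k ∈ S, F.IsRes A (s k) (u k)) :
    F.IsRes A (fun x => ∑ k ∈ S, s k x) fun x => ∑ k ∈ S, u k x := by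
  classical
  induction S using Finset.induction_on with
  | empty => simp only [Finset.sum_empty]; exact isRes_zero
  | insert k S hk ih =>
    simp only [Finset.sum_insert hk]
    exact isRes_add hA (h k (by simp)) (ih fun j hj => h j (by simp [hj]))

variable [BoundarylessManifold I M] [T2Space M]

theorem isRes_norm_le (hB : Bumps I F.e F.dv) (hA : Mc I A) (h : F.IsRes A s u) {m : ℝ}
    (hm : ∀ x, ‖s x‖ ≤ m) (x : M) : ‖u x‖ ≤ m := by
  obtain ⟨h1, ⟨C, h2⟩, h3⟩ := h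
  refine norm_le_of_bdd (A := A) hB finite_empty (by simp) (vf F.toPre) (by simp) (by simp)
    (fun y _ => hA.mc y) (fun y _ => cm2 h1 y) (fun y _ => h2 y) (fun y _ => ?_) x (by simp)
  rw [show LA I F.e F.dv A u y = -lap I F.e F.dv A u y from (neg_neg _).symm, sub_neg_eq_add, h3]
  exact hm y

theorem isRes_unique (hB : Bumps I F.e F.dv) (hA : Mc I A) (h : F.IsRes A s u)
    (k : F.IsRes A s w) : u = w := by
  have := isRes_add hA.sm h (isRes_smul hA.sm (-1) k)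
  funext x
  have h2 := isRes_norm_le hB hA this (m := 0) (fun y => by simp) x
  simpa [add_neg_eq_zero] using h2

theorem res_eq (hB : Bumps I F.e F.dv) (hA : Mc I A) (h : F.IsRes A s u) : F.res A s = u :=
  isRes_unique hB hA (res_spec ⟨u, h⟩) h

theorem res_zero (hB : Bumps I F.e F.dv) (hA : Mc I A) : F.res A 0 = 0 := res_eq hB hA isRes_zero

theorem norm_res_le (hB : Bumps I F.e F.dv) (hA : Mc I A) {m : ℝ} (hm : ∀ x, ‖s x‖ ≤ m) (x : M) :
    ‖F.res A s x‖ ≤ m := by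
  obtain ⟨t, h1, h2⟩ := res_rhs F A s
  exact isRes_norm_le hB hA h1 (fun y => (h2 y).trans (hm y)) x

theorem res_add (hB : Bumps I F.e F.dv) (hA : Mc I A) (h : ∃ u, F.IsRes A s u)
    (k : ∃ u, F.IsRes A t u) :
    F.res A (fun x => s x + t x) = fun x => F.res A s x + F.res A t x :=
  res_eq hB hA (isRes_add hA.sm (res_spec h) (res_spec k))

theorem res_smul (hB : Bumps I F.e F.dv) (hA : Mc I A) (r : ℝ) (s : M → V) :
    F.res A (fun x => r • s x) = fun x => r • F.res A s x := by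
  rcases res_cases F A s with h | h
  · exact res_eq hB hA (isRes_smul hA.sm r h)
  rcases eq_or_ne r 0 with rfl | hr
  · simp only [zero_smul]; exact res_zero hB hA
  rcases res_cases F A (fun x => r • s x) with k | k
  · have k' := isRes_smul hA.sm r⁻¹ k
    simp only [smul_smul, inv_mul_cancel₀ hr, one_smul] at k'
    exact absurd ⟨_, k'⟩ h.1
  · rw [h.2, k.2]; funext x; simp

/-- `res` preserves parallel sub-bundles -/
theorem res_fix (hB : Bumps I F.e F.dv) (hA : Mc I A) {T : M → V →L[ℝ] V} (hT : Sm I T)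
    (hb : ∃ C, ∀ x, ‖T x‖ ≤ C) (hi : ∀ x, Itw I F.e A A T x) (hs : ∀ x, T x (s x) = s x) (x : M) :
    T x (F.res A s x) = F.res A s x := by
  rcases res_cases F A s with h | h
  · have := isRes_map hA.sm hT hb hi h
    simp only [hs] at this
    exact congrFun (isRes_unique hB hA this h) x
  · simp [h.2]

/-- `res` commutes with intertwiners which have a left inverse on `s` -/
theorem res_map (hB : Bumps I F.e F.dv) (hA : ∀ a, Sm I (A a)) (hA' : Mc I A')
    {T : M → V →L[ℝ] V'} {T' : M → V' →L[ℝ] V} (hT : Sm I T) (hT' : Sm I T')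
    (hb : ∃ C, ∀ x, ‖T x‖ ≤ C) (hb' : ∃ C, ∀ x, ‖T' x‖ ≤ C) (hi : ∀ x, Itw I F.e A A' T x)
    (hi' : ∀ x, Itw I F.e A' A T' x) (hs : ∀ x, T' x (T x (s x)) = s x) :
    F.res A' (fun x => T x (s x)) = fun x => T x (F.res A s x) := by
  rcases res_cases F A s with h | h
  · exact res_eq hB hA' (isRes_map hA hT hb hi h)
  rcases res_cases F A' (fun x => T x (s x)) with k | k
  · have := isRes_map hA'.sm hT' hb' hi' k
    simp only [hs] at this
    exact absurd ⟨_, this⟩ h.1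
  · rw [h.2, k.2]; funext x; simp

section compact
variable [BorelSpace M] [CompactSpace M]

theorem sol_of_isRes (hA : Mc I A) (h : F.IsRes A s u) : Sol F A u s :=
  ⟨hA.sm, hA.sk, h.1, h.2.2, by simp [cocompact_eq_bot]⟩

theorem integ_pow_norm (hs : Continuous s) (n : ℕ) : Integrable (fun x => ‖s x‖ ^ n) F.μ :=
  (hs.norm.pow n).integrable_of_hasCompactSupport (HasCompactSupport.of_compactSpace _)

/-- `L² → L⁴` -/
theorem l4_res_le (hA : Mc I A) {S β : ℝ} (hS : L4 F.toPre S) (hS0 : 0 ≤ S) (hβ0 : 0 ≤ β)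
    (hs : Continuous s) (hβ : ∫ x, ‖s x‖ ^ 2 ∂F.μ ≤ β ^ 2) :
    ∫ x, ‖F.res A s x‖ ^ 4 ∂F.μ ≤ (S * β ^ 2) ^ 2 := by
  rcases res_cases F A s with h | h
  · exact ((sol_of_isRes hA h).l4_le hS hS0 hβ0 (integ_pow_norm hs 2) hβ).2
  · simp only [h.2, Pi.zero_apply, norm_zero]; simp; positivity

/-- `L⁴ → L^∞` -/
theorem sup_res_le [F.μ.IsOpenPosMeasure] (hA : Mc I A) {S β : ℝ} (hS : L4 F.toPre S)
    (hS0 : 0 ≤ S) (hβ0 : 0 ≤ β) (hs : Continuous s) (hβ : ∫ x, ‖s x‖ ^ 4 ∂F.μ ≤ β ^ 4) (x : M) :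
    ‖F.res A s x‖ ≤ (3 + 8 * S ^ 2) * β := by
  rcases res_cases F A s with h | h
  · exact (sol_of_isRes hA h).sup_le hS hS0 hβ0 (integ_pow_norm hs 4) hβ x
  · simp only [h.2, Pi.zero_apply, norm_zero]; positivity

/-- `L² → L^∞` for the square of the resolvent -/
theorem sup_res_res [F.μ.IsOpenPosMeasure] (hA : Mc I A) {S β : ℝ} (hS : L4 F.toPre S)
    (hS0 : 0 ≤ S) (hβ0 : 0 ≤ β) (hs : Continuous s) (hβ : ∫ x, ‖s x‖ ^ 2 ∂F.μ ≤ β ^ 2) (x : M) :
    ‖F.res A (F.res A s) x‖ ≤ (3 + 8 * S ^ 2) * (√S * β) := by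
  refine sup_res_le hA hS hS0 (by positivity) (sm_res F A s).continuous
    ((l4_res_le hA hS hS0 hβ0 hs hβ).trans_eq ?_) x
  rw [mul_pow √S, show 4 = 2 * 2 from rfl, pow_mul, Real.sq_sqrt hS0]; ring

end compact

end Crest.Agent.X212.Mp86

end
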