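import Crest.Agent.X212.Sob92.Der

-- ▼ part X212/Mp86/Max
section

/-!
# Row 212, layer AN (helper86): second derivative test along vector fields

`dv I v f x` (helper92) is the derivative of `f` along the vector field `v`.  At a local maximum of a real
function `f`: `v f = 0` and `v (v f) ≤ 0`.
-/

set_option autoImplicit false
open Set Filter Topology
open scoped Manifold ContDiff

noncomputable section

namespace Crest.Agent.X212.Mp86

/-- one variable -/
theorem second_nonpos {h h' : ℝ → ℝ} {c : ℝ} (hm : IsLocalMax h 0)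
    (hd : ∀ᶠ t in 𝓝 (0 : ℝ), HasDerivAt h (h' t) t) (h2 : HasDerivAt h' c 0) :
    h' 0 = 0 ∧ c ≤ 0 := by
  have h0 : h' 0 = 0 := hm.hasDerivAt_eq_zero hd.self_of_nhds
  refine ⟨h0, le_of_not_gt fun hc => ?_⟩
  have e : deriv h =ᶠ[𝓝 0] h' := hd.mono fun t ht => ht.deriv
  -- `h' > 0` just right of `0`
  have p : ∀ᶠ t in 𝓝[>] (0 : ℝ), 0 < h' t := by
    have s := h2.tendsto_slope_zero_right
    filter_upwards [s.eventually (lt_mem_nhds hc), self_mem_nhdsWithin] with t ht (t0 : 0 < t)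
    simp only [zero_add, h0, sub_zero, smul_eq_mul] at ht
    exact (mul_pos_iff_of_pos_left (inv_pos.2 t0)).1 ht
  obtain ⟨δ, hδ, hP⟩ := (nhdsGT_basis (0 : ℝ)).eventually_iff.1
    (p.and ((hd.and hm).filter_mono nhdsWithin_le_nhds))
  have hδ2 : δ / 2 ∈ Ioo 0 δ := ⟨half_pos hδ, half_lt_self hδ⟩
  have hc' : ContinuousOn h (Icc 0 (δ / 2)) := fun t ht => by
    rcases ht.1.eq_or_lt with rfl | h1
    · exact hd.self_of_nhds.continuousAt.continuousWithinAt
    · exact (hP ⟨h1, ht.2.trans_lt hδ2.2⟩).2.1.continuousAt.continuousWithinAt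
  obtain ⟨t, ht, e2⟩ := exists_hasDerivAt_eq_slope h h' hδ2.1 hc'
    fun t ht => (hP ⟨ht.1, ht.2.trans hδ2.2⟩).2.1
  have a1 := (hP ⟨ht.1, ht.2.trans hδ2.2⟩).1
  have a2 := (hP hδ2).2.2
  rw [e2] at a1
  have := (div_pos_iff_of_pos_right (by linarith [hδ2.1])).1 a1
  linarith

variable {E H M : Type*} [NormedAddCommGroup E] [NormedSpace ℝ E] [TopologicalSpace H]
  (I : ModelWithCorners ℝ E H) [TopologicalSpace M] [ChartedSpace H M]
  {V : Type*} [NormedAddCommGroup V] [NormedSpace ℝ V]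

export Sob92 (dv)

variable {I}

/-- chain rule along a curve with velocity `w` -/
theorem hasDerivAt_curve {γ : ℝ → M} {t : ℝ} {w : TangentSpace I (γ t)} {f : M → V}
    (hγ : HasMFDerivAt 𝓘(ℝ, ℝ) I γ t ((1 : ℝ →L[ℝ] ℝ).smulRight w))
    (hf : MDifferentiableAt I 𝓘(ℝ, V) f (γ t)) :
    HasDerivAt (f ∘ γ) (mfderiv I 𝓘(ℝ, V) f (γ t) w : V) t := by
  have h1 := (hf.hasMFDerivAt.comp t hγ)
  rw [hasMFDerivAt_iff_hasFDerivAt] at h1
  let c : V := mfderiv I 𝓘(ℝ, V) f (γ t) w
  have h2 : HasFDerivAt (f ∘ γ) ((1 : ℝ →L[ℝ] ℝ).smulRight c) t := by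
    refine h1.congr_fderiv ?_
    ext
    change mfderiv I 𝓘(ℝ, V) f (γ t) ((1 : ℝ) • w) = (1 : ℝ) • c
    rw [one_smul, one_smul]
  have h3 := h2.hasDerivAt
  rw [ContinuousLinearMap.smulRight_apply, one_apply_eq_self, one_smul] at h3
  exact h3

/-- second derivative test along a `C¹` vector field -/
theorem dv_dv_nonpos [CompleteSpace E] [IsManifold I 1 M] [BoundarylessManifold I M]
    {v : Π x : M, TangentSpace I x} {f : M → ℝ} {x : M}
    (hv : ContMDiffAt I I.tangent 1 (fun y => (⟨y, v y⟩ : TangentBundle I M)) x)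
    (hf : ∀ᶠ y in 𝓝 x, MDifferentiableAt I 𝓘(ℝ, ℝ) f y)
    (hg : MDifferentiableAt I 𝓘(ℝ, ℝ) (dv I v f) x) (hm : IsLocalMax f x) :
    dv I v f x = 0 ∧ dv I v (dv I v f) x ≤ 0 := by
  obtain ⟨γ, rfl, hγ⟩ := exists_isMIntegralCurveAt_of_contMDiffAt_boundaryless 0 hv
  have hc := hγ.continuousAt
  refine second_nonpos (h := f ∘ γ) (h' := dv I v f ∘ γ) (hm.comp_continuous hc) ?_
    (hasDerivAt_curve hγ.hasMFDerivAt hg)
  filter_upwards [hγ, hc.eventually hf] with t h1 h2 using hasDerivAt_curve h1 h2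

end Crest.Agent.X212.Mp86

end
end

-- ▼ part X212/Mp86/Calc
section

/-!
# Row 212, layer AN (helper86): local calculus of `dv`, the operator `Lop`, maximum principle

All statements are local (at a point), so they apply on punctured manifolds.
-/

set_option autoImplicit false
open Set Filter Topology
open scoped Manifold ContDiff InnerProductSpace

noncomputable section

namespace Crest.Agent.X212.Mp86

variable {E H M : Type*} [NormedAddCommGroup E] [NormedSpace ℝ E] [TopologicalSpace H]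
  {I : ModelWithCorners ℝ E H} [TopologicalSpace M] [ChartedSpace H M]
  {V W Z : Type*} [NormedAddCommGroup V] [NormedSpace ℝ V] [NormedAddCommGroup W] [NormedSpace ℝ W]
  [NormedAddCommGroup Z] [NormedSpace ℝ Z]
  {v : Π x : M, TangentSpace I x} {x : M}

/-- `MDifferentiableAt` into a vector space -/
abbrev MD (I : ModelWithCorners ℝ E H) (u : M → V) (x : M) : Prop :=
  MDifferentiableAt I 𝓘(ℝ, V) u x

/-- `ContMDiffAt` into a vector space -/
abbrev CM (I : ModelWithCorners ℝ E H) (n : ℕ∞ω) (u : M → V) (x : M) : Prop :=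
  ContMDiffAt I 𝓘(ℝ, V) n u x

/-- `C^n` vector field at a point -/
abbrev VF (I : ModelWithCorners ℝ E H) [IsManifold I 1 M] (n : ℕ∞ω)
    (v : Π x : M, TangentSpace I x) (x : M) : Prop :=
  ContMDiffAt I I.tangent n (fun y => (⟨y, v y⟩ : TangentBundle I M)) x

theorem dv_congr {u w : M → V} (h : u =ᶠ[𝓝 x] w) : dv I v u x = dv I v w x := by
  unfold dv; rw [h.mfderiv_eq]; rfl

theorem dv_congr_ev {u w : M → V} (h : u =ᶠ[𝓝 x] w) : dv I v u =ᶠ[𝓝 x] dv I v w :=
  h.eventuallyEq_nhds.mono fun _ hy => dv_congr hy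

/-- chain rule -/
theorem dv_comp {u : M → V} {g : V → W} {g' : V →L[ℝ] W} (hg : HasFDerivAt g g' (u x))
    (hu : MD I u x) : dv I v (fun y => g (u y)) x = g' (dv I v u x) := by
  have := (hg.hasMFDerivAt.comp x hu.hasMFDerivAt).mfderiv
  unfold dv
  exact congrArg (fun L => L (v x)) this

theorem dv_clm (g : V →L[ℝ] W) {u : M → V} (hu : MD I u x) :
    dv I v (fun y => g (u y)) x = g (dv I v u x) := dv_comp g.hasFDerivAt hu

theorem dv_const (c : V) : dv I v (fun _ => c) x = 0 := by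
  unfold dv; rw [mfderiv_const]; rfl

theorem md_prod {u : M → V} {w : M → W} (hu : MD I u x) (hw : MD I w x) :
    MD I (fun y => (u y, w y)) x := hu.prodMk_space hw

theorem dv_prod {u : M → V} {w : M → W} (hu : MD I u x) (hw : MD I w x) :
    dv I v (fun y => (u y, w y)) x = (dv I v u x, dv I v w x) := by
  have h := md_prod hu hw
  ext1
  · exact (dv_clm (ContinuousLinearMap.fst ℝ V W) h).symm
  · exact (dv_clm (ContinuousLinearMap.snd ℝ V W) h).symm

theorem md_comp {u : M → V} {g : V → W} (hg : DifferentiableAt ℝ g (u x)) (hu : MD I u x) :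
    MD I (fun y => g (u y)) x := hg.comp_mdifferentiableAt hu

theorem dv_add {u w : M → V} (hu : MD I u x) (hw : MD I w x) :
    dv I v (fun y => u y + w y) x = dv I v u x + dv I v w x := by
  have := dv_clm (v := v) (ContinuousLinearMap.fst ℝ V V + ContinuousLinearMap.snd ℝ V V)
    (md_prod hu hw)
  rw [dv_prod hu hw] at this
  simpa using this

theorem dv_sub {u w : M → V} (hu : MD I u x) (hw : MD I w x) :
    dv I v (fun y => u y - w y) x = dv I v u x - dv I v w x := by
  have := dv_clm (v := v) (ContinuousLinearMap.fst ℝ V V - ContinuousLinearMap.snd ℝ V V)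
    (md_prod hu hw)
  rw [dv_prod hu hw] at this
  simpa using this

/-- Leibniz rule for a continuous bilinear map -/
theorem dv_bil (B : V →L[ℝ] W →L[ℝ] Z) {u : M → V} {w : M → W} (hu : MD I u x) (hw : MD I w x) :
    dv I v (fun y => B (u y) (w y)) x = B (dv I v u x) (w x) + B (u x) (dv I v w x) := by
  have := dv_comp (v := v) (u := fun y => (u y, w y))
    (B.isBoundedBilinearMap.hasFDerivAt (u x, w x)) (md_prod hu hw)
  rw [dv_prod hu hw] at this
  rw [add_comm]
  exact this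

theorem md_bil (B : V →L[ℝ] W →L[ℝ] Z) {u : M → V} {w : M → W} (hu : MD I u x) (hw : MD I w x) :
    MD I (fun y => B (u y) (w y)) x :=
  md_comp (u := fun y => (u y, w y)) (B.isBoundedBilinearMap.differentiableAt (u x, w x))
    (md_prod hu hw)

theorem dv_smul {c : M → ℝ} {u : M → V} (hc : MD I c x) (hu : MD I u x) :
    dv I v (fun y => c y • u y) x = dv I v c x • u x + c x • dv I v u x :=
  dv_bil (ContinuousLinearMap.lsmul ℝ ℝ) hc hu

theorem md_smul {c : M → ℝ} {u : M → V} (hc : MD I c x) (hu : MD I u x) :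
    MD I (fun y => c y • u y) x := md_bil (ContinuousLinearMap.lsmul ℝ ℝ) hc hu

theorem dv_mul {c d : M → ℝ} (hc : MD I c x) (hd : MD I d x) :
    dv I v (fun y => c y * d y) x = dv I v c x * d x + c x * dv I v d x := dv_smul hc hd

theorem md_mul {c d : M → ℝ} (hc : MD I c x) (hd : MD I d x) : MD I (fun y => c y * d y) x :=
  md_smul hc hd

theorem dv_app {A : M → V →L[ℝ] W} {u : M → V} (hA : MD I A x) (hu : MD I u x) :
    dv I v (fun y => A y (u y)) x = dv I v A x (u x) + A x (dv I v u x) :=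
  dv_bil (ContinuousLinearMap.id ℝ (V →L[ℝ] W)) hA hu

theorem md_sum {ι : Type*} (s : Finset ι) {u : ι → M → V} (hu : ∀ i ∈ s, MD I (u i) x) :
    MD I (fun y => ∑ i ∈ s, u i y) x := by
  classical
  induction s using Finset.induction_on with
  | empty => simpa using mdifferentiableAt_const
  | insert a s ha ih =>
    simp only [Finset.sum_insert ha]
    exact (hu a (by simp)).add (ih fun i hi => hu i (by simp [hi]))

theorem dv_sum {ι : Type*} (s : Finset ι) {u : ι → M → V} (hu : ∀ i ∈ s, MD I (u i) x) :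
    dv I v (fun y => ∑ i ∈ s, u i y) x = ∑ i ∈ s, dv I v (u i) x := by
  classical
  induction s using Finset.induction_on with
  | empty => simp [dv_const]
  | insert a s ha ih =>
    simp only [Finset.sum_insert ha]
    rw [dv_add (hu a (by simp)) (md_sum s fun i hi => hu i (by simp [hi])),
      ih fun i hi => hu i (by simp [hi])]

section inner
variable {U : Type*} [NormedAddCommGroup U] [InnerProductSpace ℝ U]

theorem dv_inner {u w : M → U} (hu : MD I u x) (hw : MD I w x) :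
    dv I v (fun y => ⟪u y, w y⟫_ℝ) x = ⟪dv I v u x, w x⟫_ℝ + ⟪u x, dv I v w x⟫_ℝ :=
  dv_bil (innerSL ℝ) hu hw

theorem md_inner {u w : M → U} (hu : MD I u x) (hw : MD I w x) :
    MD I (fun y => ⟪u y, w y⟫_ℝ) x := md_bil (innerSL ℝ) hu hw

end inner

variable [IsManifold I ∞ M]

/-- the derivative along a `C^m` field of a `C^(m+1)` map is `C^m` -/
theorem cm_dv {m n : ℕ∞ω} {u : M → V} (hu : CM I n u x) (hv : VF I m v x) (hmn : m + 1 ≤ n) :
    CM I m (dv I v u) x := by
  have h := ContMDiffAt.mfderiv_const hu hmn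
  have h2 := ContMDiffAt.clm_apply_of_inCoordinates (IB₁ := I) (IB₂ := 𝓘(ℝ, V)) (IM := I)
    (b₁ := fun y : M => y) (b₂ := u) (E₁ := TangentSpace I) (E₂ := TangentSpace 𝓘(ℝ, V))
    (ϕ := fun y => mfderiv I 𝓘(ℝ, V) u y) (v := v) h hv (hu.of_le (le_self_add.trans hmn))
  exact (contMDiff_snd_tangentBundle_modelSpace V 𝓘(ℝ, V)).contMDiffAt.comp x h2

theorem CM.ev_md {n : ℕ∞ω} {u : M → V} (hu : CM I n u x) (hn : 1 ≤ n) : ∀ᶠ y in 𝓝 x, MD I u y :=
  (contMDiffAt_iff_contMDiffAt_nhds (by simp)).1 (hu.of_le hn) |>.mono fun _ hy =>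
    hy.mdifferentiableAt one_ne_zero

omit [IsManifold I ∞ M] in
theorem CM.md {n : ℕ∞ω} {u : M → V} (hu : CM I n u x) (hn : 1 ≤ n) : MD I u x :=
  (hu.of_le hn).mdifferentiableAt one_ne_zero

theorem md_dv {u : M → V} (hu : CM I 2 u x) (hv : VF I 1 v x) : MD I (dv I v u) x :=
  (cm_dv hu hv (by norm_num)).md le_rfl

end Crest.Agent.X212.Mp86

end
end

-- ▼ part X212/Mp86/Lop

/-!
# Row 212, layer AN (helper86): the frame Laplacian, its covariant version, pointwise identities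

`Lop e b u = ∑ a, (e a (e a u) + b a • e a u)` (analyst's sign), `cd v A u = v u + A u`,
`LA e b A u = ∑ a, (∇a ∇a u + b a • ∇a u)`.
-/

set_option autoImplicit false
open Set Filter Topology
open scoped Manifold ContDiff InnerProductSpace

noncomputable section

namespace Crest.Agent.X212.Mp86

variable {E H M : Type*} [NormedAddCommGroup E] [NormedSpace ℝ E] [TopologicalSpace H]
  (I : ModelWithCorners ℝ E H) [TopologicalSpace M] [ChartedSpace H M]
  {V : Type*} [NormedAddCommGroup V] [NormedSpace ℝ V]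
  {U : Type*} [NormedAddCommGroup U] [InnerProductSpace ℝ U] {ι : Type*} [Fintype ι]

/-- frame Laplacian with first order term -/
def Lop (e : ι → Π x : M, TangentSpace I x) (b : ι → M → ℝ) (u : M → V) (x : M) : V :=
  ∑ a, (dv I (e a) (dv I (e a) u) x + b a x • dv I (e a) u x)

/-- covariant derivative along `v` -/
def cd (v : Π x : M, TangentSpace I x) (A : M → V →L[ℝ] V) (u : M → V) (x : M) : V :=
  dv I v u x + A x (u x)

/-- covariant Laplacian -/
def LA (e : ι → Π x : M, TangentSpace I x) (b : ι → M → ℝ) (A : ι → M → V →L[ℝ] V)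
    (u : M → V) (x : M) : V :=
  ∑ a, (cd I (e a) (A a) (cd I (e a) (A a) u) x + b a x • cd I (e a) (A a) u x)

variable {I} {e : ι → Π x : M, TangentSpace I x} {b : ι → M → ℝ} {x : M}
  {v : Π x : M, TangentSpace I x}

theorem Lop_congr {u w : M → V} (h : u =ᶠ[𝓝 x] w) : Lop I e b u x = Lop I e b w x := by
  unfold Lop
  refine Finset.sum_congr rfl fun a _ => ?_
  rw [dv_congr (dv_congr_ev h), dv_congr h]

theorem cd_congr {A : M → V →L[ℝ] V} {u w : M → V} (h : u =ᶠ[𝓝 x] w) :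
    cd I v A u x = cd I v A w x := by
  unfold cd; rw [dv_congr h, h.eq_of_nhds]

theorem cd_congr_ev {A : M → V →L[ℝ] V} {u w : M → V} (h : u =ᶠ[𝓝 x] w) :
    cd I v A u =ᶠ[𝓝 x] cd I v A w := h.eventuallyEq_nhds.mono fun _ hy => cd_congr hy

theorem LA_congr {A : ι → M → V →L[ℝ] V} {u w : M → V} (h : u =ᶠ[𝓝 x] w) :
    LA I e b A u x = LA I e b A w x := by
  unfold LA
  refine Finset.sum_congr rfl fun a _ => ?_
  rw [cd_congr (cd_congr_ev h), cd_congr h]

/-- a metric connection differentiates inner products -/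
theorem dv_inner_cd {A : M → U →L[ℝ] U} (hA : ∀ s t, ⟪A x s, t⟫_ℝ = -⟪s, A x t⟫_ℝ) {u w : M → U}
    (hu : MD I u x) (hw : MD I w x) :
    dv I v (fun y => ⟪u y, w y⟫_ℝ) x = ⟪cd I v A u x, w x⟫_ℝ + ⟪u x, cd I v A w x⟫_ℝ := by
  rw [dv_inner hu hw]; unfold cd
  rw [inner_add_left, inner_add_right, hA]; ring

theorem cd_sub {A : M → V →L[ℝ] V} {u w : M → V} (hu : MD I u x) (hw : MD I w x) :
    cd I v A (fun y => u y - w y) x = cd I v A u x - cd I v A w x := by
  unfold cd; rw [dv_sub hu hw, map_sub]; abel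

theorem cd_add {A : M → V →L[ℝ] V} {u w : M → V} (hu : MD I u x) (hw : MD I w x) :
    cd I v A (fun y => u y + w y) x = cd I v A u x + cd I v A w x := by
  unfold cd; rw [dv_add hu hw, map_add]; abel

theorem cd_smul {A : M → V →L[ℝ] V} {c : M → ℝ} {u : M → V} (hc : MD I c x) (hu : MD I u x) :
    cd I v A (fun y => c y • u y) x = dv I v c x • u x + c x • cd I v A u x := by
  unfold cd; rw [dv_smul hc hu, map_smul, smul_add]; abel

variable [IsManifold I ∞ M]

theorem cm_cd {m n : ℕ∞ω} {A : M → V →L[ℝ] V} {u : M → V} (hu : CM I n u x) (hv : VF I m v x)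
    (hA : CM I m A x) (hmn : m + 1 ≤ n) : CM I m (cd I v A u) x :=
  (cm_dv hu hv hmn).add (hA.clm_apply (hu.of_le (le_self_add.trans hmn)))

theorem md_cd {A : M → V →L[ℝ] V} {u : M → V} (hu : CM I 2 u x) (hv : VF I 1 v x)
    (hA : CM I 1 A x) : MD I (cd I v A u) x := (cm_cd hu hv hA (by norm_num)).md le_rfl

/-- weak maximum principle at a point -/
theorem Lop_nonpos [CompleteSpace E] [BoundarylessManifold I M] {f : M → ℝ}
    (he : ∀ a, VF I 1 (e a) x) (hf : CM I 2 f x) (hm : IsLocalMax f x) : Lop I e b f x ≤ 0 := by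
  refine Finset.sum_nonpos fun a _ => ?_
  obtain ⟨h1, h2⟩ := dv_dv_nonpos (he a) (hf.ev_md one_le_two) (md_dv hf (he a)) hm
  rw [h1]; simpa using h2

theorem Lop_add {u w : M → V} (he : ∀ a, VF I 1 (e a) x) (hu : CM I 2 u x) (hw : CM I 2 w x) :
    Lop I e b (fun y => u y + w y) x = Lop I e b u x + Lop I e b w x := by
  unfold Lop
  rw [← Finset.sum_add_distrib]
  refine Finset.sum_congr rfl fun a _ => ?_
  have h : dv I (e a) (fun y => u y + w y) =ᶠ[𝓝 x] fun y => dv I (e a) u y + dv I (e a) w y := by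
    filter_upwards [hu.ev_md one_le_two, hw.ev_md one_le_two] with y h1 h2 using dv_add h1 h2
  rw [dv_congr h, h.eq_of_nhds, dv_add (md_dv hu (he a)) (md_dv hw (he a)), smul_add]; abel

theorem Lop_clm {W : Type*} [NormedAddCommGroup W] [NormedSpace ℝ W] (g : V →L[ℝ] W) {u : M → V}
    (he : ∀ a, VF I 1 (e a) x) (hu : CM I 2 u x) :
    Lop I e b (fun y => g (u y)) x = g (Lop I e b u x) := by
  unfold Lop
  rw [map_sum]
  refine Finset.sum_congr rfl fun a _ => ?_
  have h : dv I (e a) (fun y => g (u y)) =ᶠ[𝓝 x] fun y => g (dv I (e a) u y) := by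
    filter_upwards [hu.ev_md one_le_two] with y h1 using dv_clm g h1
  rw [dv_congr h, h.eq_of_nhds, dv_clm g (md_dv hu (he a)), map_add, map_smul]

theorem Lop_smul (c : ℝ) {u : M → V} (he : ∀ a, VF I 1 (e a) x) (hu : CM I 2 u x) :
    Lop I e b (fun y => c • u y) x = c • Lop I e b u x :=
  Lop_clm (c • ContinuousLinearMap.id ℝ V) he hu

theorem Lop_mul (c : ℝ) {u : M → ℝ} (he : ∀ a, VF I 1 (e a) x) (hu : CM I 2 u x) :
    Lop I e b (fun y => c * u y) x = c * Lop I e b u x := Lop_smul c he hu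

theorem Lop_sub {u w : M → V} (he : ∀ a, VF I 1 (e a) x) (hu : CM I 2 u x) (hw : CM I 2 w x) :
    Lop I e b (fun y => u y - w y) x = Lop I e b u x - Lop I e b w x := by
  have := Lop_add (b := b) he hu (w := fun y => (-1 : ℝ) • w y) ((contMDiffAt_const (c := (-1 : ℝ)) (I' := 𝓘(ℝ, ℝ))).smul hw)
  rw [Lop_smul _ he hw] at this
  simpa [sub_eq_add_neg] using this

omit [IsManifold I ∞ M] in
theorem Lop_const (c : V) : Lop I e b (fun _ => c) x = 0 := by
  unfold Lop
  have : ∀ a, dv I (e a) (fun _ : M => c) = fun _ => 0 := fun a => funext fun _ => dv_const c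
  simp [this, dv_const]

theorem Lop_sum {κ : Type*} (s : Finset κ) {u : κ → M → V} (he : ∀ a, VF I 1 (e a) x)
    (hu : ∀ i ∈ s, CM I 2 (u i) x) :
    Lop I e b (fun y => ∑ i ∈ s, u i y) x = ∑ i ∈ s, Lop I e b (u i) x := by
  classical
  induction s using Finset.induction_on with
  | empty => simpa using Lop_const 0
  | insert a s ha ih =>
    simp only [Finset.sum_insert ha]
    rw [Lop_add he (hu a (by simp)) (contMDiffAt_finsetSum fun i hi => hu i (by simp [hi])),
      ih fun i hi => hu i (by simp [hi])]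

/-- chain rule for a real function of a real function -/
theorem Lop_comp {Q : M → ℝ} {g g' : ℝ → ℝ} {g'' : ℝ} (he : ∀ a, VF I 1 (e a) x)
    (hQ : CM I 2 Q x) (hg : ∀ᶠ t in 𝓝 (Q x), HasDerivAt g (g' t) t)
    (hg' : HasDerivAt g' g'' (Q x)) :
    Lop I e b (fun y => g (Q y)) x =
      g'' * ∑ a, dv I (e a) Q x ^ 2 + g' (Q x) * Lop I e b Q x := by
  unfold Lop
  rw [Finset.mul_sum, Finset.mul_sum, ← Finset.sum_add_distrib]
  refine Finset.sum_congr rfl fun a _ => ?_
  have h : dv I (e a) (fun y => g (Q y)) =ᶠ[𝓝 x] fun y => g' (Q y) * dv I (e a) Q y := by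
    filter_upwards [hQ.ev_md one_le_two, hQ.continuousAt.eventually hg] with y h1 h2
    rw [dv_comp h2.hasFDerivAt h1]; simp [mul_comm]
  have hm := hQ.md one_le_two
  rw [dv_congr h, h.eq_of_nhds, dv_mul (md_comp hg'.differentiableAt hm) (md_dv hQ (he a)),
    dv_comp hg'.hasFDerivAt hm]
  simp; ring

/-- product rule -/
theorem Lop_mul_fun {f g : M → ℝ} (he : ∀ a, VF I 1 (e a) x) (hf : CM I 2 f x) (hg : CM I 2 g x) :
    Lop I e b (fun y => f y * g y) x = Lop I e b f x * g x + f x * Lop I e b g x +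
      2 * ∑ a, dv I (e a) f x * dv I (e a) g x := by
  unfold Lop
  rw [Finset.mul_sum, Finset.mul_sum, Finset.sum_mul, ← Finset.sum_add_distrib,
    ← Finset.sum_add_distrib]
  refine Finset.sum_congr rfl fun a _ => ?_
  have h : dv I (e a) (fun y => f y * g y) =ᶠ[𝓝 x]
      fun y => dv I (e a) f y * g y + f y * dv I (e a) g y := by
    filter_upwards [hf.ev_md one_le_two, hg.ev_md one_le_two] with y h1 h2 using dv_mul h1 h2
  have f1 := hf.md one_le_two
  have g1 := hg.md one_le_two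
  have f2 := md_dv hf (he a)
  have g2 := md_dv hg (he a)
  rw [dv_congr h, h.eq_of_nhds, dv_add (md_mul f2 g1) (md_mul f1 g2), dv_mul f2 g1, dv_mul f1 g2]
  simp only [smul_eq_mul]; ring

/-- Bochner identity for a metric connection -/
theorem Lop_inner {A : ι → M → U →L[ℝ] U} {u w : M → U} (he : ∀ a, VF I 1 (e a) x)
    (hA : ∀ a, CM I 1 (A a) x) (hs : ∀ a, ∀ᶠ y in 𝓝 x, ∀ s t, ⟪A a y s, t⟫_ℝ = -⟪s, A a y t⟫_ℝ)
    (hu : CM I 2 u x) (hw : CM I 2 w x) :
    Lop I e b (fun y => ⟪u y, w y⟫_ℝ) x = ⟪LA I e b A u x, w x⟫_ℝ + ⟪u x, LA I e b A w x⟫_ℝ +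
      2 * ∑ a, ⟪cd I (e a) (A a) u x, cd I (e a) (A a) w x⟫_ℝ := by
  unfold Lop LA
  rw [sum_inner, inner_sum, Finset.mul_sum, ← Finset.sum_add_distrib, ← Finset.sum_add_distrib]
  refine Finset.sum_congr rfl fun a _ => ?_
  have h : dv I (e a) (fun y => ⟪u y, w y⟫_ℝ) =ᶠ[𝓝 x]
      fun y => ⟪cd I (e a) (A a) u y, w y⟫_ℝ + ⟪u y, cd I (e a) (A a) w y⟫_ℝ := by
    filter_upwards [hu.ev_md one_le_two, hw.ev_md one_le_two, hs a] with y h1 h2 h3
      using dv_inner_cd h3 h1 h2
  have u1 := hu.md one_le_two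
  have w1 := hw.md one_le_two
  have u2 := md_cd hu (he a) (hA a)
  have w2 := md_cd hw (he a) (hA a)
  have h0 := (hs a).self_of_nhds
  rw [dv_congr h, h.eq_of_nhds, dv_add (md_inner u2 w1) (md_inner u1 w2), dv_inner_cd h0 u2 w1,
    dv_inner_cd h0 u1 w2, inner_add_left, inner_add_right, real_inner_smul_left,
    real_inner_smul_right, smul_eq_mul]
  ring

theorem Lop_normSq {A : ι → M → U →L[ℝ] U} {u : M → U} (he : ∀ a, VF I 1 (e a) x)
    (hA : ∀ a, CM I 1 (A a) x) (hs : ∀ a, ∀ᶠ y in 𝓝 x, ∀ s t, ⟪A a y s, t⟫_ℝ = -⟪s, A a y t⟫_ℝ)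
    (hu : CM I 2 u x) :
    Lop I e b (fun y => ‖u y‖ ^ 2) x = 2 * ⟪LA I e b A u x, u x⟫_ℝ +
      2 * ∑ a, ‖cd I (e a) (A a) u x‖ ^ 2 := by
  have := Lop_inner (b := b) he hA hs hu hu
  simp only [real_inner_self_eq_norm_sq] at this
  rw [this, real_inner_comm (LA I e b A u x)]; ring

omit [IsManifold I ∞ M] in
theorem cm_normSq {n : ℕ∞ω} {u : M → U} (hu : CM I n u x) : CM I n (fun y => ‖u y‖ ^ 2) x :=
  (contDiff_norm_sq ℝ).contDiffAt.comp_contMDiffAt hu

theorem LA_sub {A : ι → M → V →L[ℝ] V} {u w : M → V} (he : ∀ a, VF I 1 (e a) x)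
    (hA : ∀ a, CM I 1 (A a) x) (hu : CM I 2 u x) (hw : CM I 2 w x) :
    LA I e b A (fun y => u y - w y) x = LA I e b A u x - LA I e b A w x := by
  unfold LA
  rw [← Finset.sum_sub_distrib]
  refine Finset.sum_congr rfl fun a _ => ?_
  have h : cd I (e a) (A a) (fun y => u y - w y) =ᶠ[𝓝 x]
      fun y => cd I (e a) (A a) u y - cd I (e a) (A a) w y := by
    filter_upwards [hu.ev_md one_le_two, hw.ev_md one_le_two] with y h1 h2 using cd_sub h1 h2
  rw [cd_congr h, h.eq_of_nhds, cd_sub (md_cd hu (he a) (hA a)) (md_cd hw (he a) (hA a)), smul_sub]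
  abel

end Crest.Agent.X212.Mp86

end
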