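import Crest.Agent.X212.Rf65.Imm
import Crest.Agent.X212.Mp86.Scn
import Crest.Agent.X212.M.Lit
import Crest.Agent.X212.M.Rel
import Crest.Agent.X212.Cyl58.Cps
import Crest.Agent.X212.Wz78.Gw

-- ▼ part X212/Mp86/Hyp
section

/-!
# Row 212 (helper86): hypersurfaces; the pinched neck `ds² + (s² + ε²) g_S` is scalar flat
-/

set_option autoImplicit false
set_option linter.unusedSectionVars false
open scoped Manifold ContDiff Topology InnerProductSpace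
open Finset Filter

noncomputable section
namespace Crest.Agent.X212.Mp86
open Wz78 Sob92 Rf65

variable {E H : Type*} [NormedAddCommGroup E] [NormedSpace ℝ E] [TopologicalSpace H]
  {I : ModelWithCorners ℝ E H} {M : Type*} [TopologicalSpace M] [ChartedSpace H M]
  {V : Type*} [NormedAddCommGroup V] [InnerProductSpace ℝ V] [FiniteDimensional ℝ V]
  {ι : Type*} [Fintype ι] [IsManifold I 1 M]
  {e : ι → (x : M) → TangentSpace I x} {P : ι → ι → M → ℝ} {c Γ : ι → ι → ι → M → ℝ}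
  {Θ ν θ : M → V} {s : M → ℝ} {ε : ℝ} {x : M}

variable (I) in
/-- near `x`, `Θ` maps isometrically onto a hypersurface with the unit normal `ν` -/
structure Hyp (e : ι → (x : M) → TangentSpace I x) (Θ ν : M → V) (x : M) : Prop where
  sm : ∀ᶠ y in 𝓝 x, SA I Θ y
  sn : SA I ν x
  nrm : ∀ᶠ y in 𝓝 x, ⟪ν y, ν y⟫_ℝ = 1
  gram : ∀ᶠ y in 𝓝 x, ∀ v w, ∑ a, ⟪v, dv I (e a) Θ y⟫_ℝ * ⟪w, dv I (e a) Θ y⟫_ℝ =
    ⟪v, w⟫_ℝ - ⟪v, ν y⟫_ℝ * ⟪w, ν y⟫_ℝ

theorem perp_of_gram {X : ι → V} {n : V} (h1 : ⟪n, n⟫_ℝ = 1)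
    (h : ∀ v w, ∑ a, ⟪v, X a⟫_ℝ * ⟪w, X a⟫_ℝ = ⟪v, w⟫_ℝ - ⟪v, n⟫_ℝ * ⟪w, n⟫_ℝ) (a : ι) :
    ⟪X a, n⟫_ℝ = 0 := by
  have := h n n
  rw [h1, mul_one, sub_self] at this
  rw [real_inner_comm]
  exact mul_self_eq_zero.1 ((sum_eq_zero_iff_of_nonneg fun a _ => mul_self_nonneg _).1 this a
    (mem_univ a))

theorem gram_eq_of {X : ι → V} {n : V} {Q : ι → ι → ℝ} (hQ : Pr Q) (h1 : ⟪n, n⟫_ℝ = 1)
    (h : ∀ v w, ∑ a, ⟪v, X a⟫_ℝ * ⟪w, X a⟫_ℝ = ⟪v, w⟫_ℝ - ⟪v, n⟫_ℝ * ⟪w, n⟫_ℝ)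
    (hp : ∀ a, ∑ b, Q a b • X b = X a) (hd : ∑ a, Q a a = (Module.finrank ℝ V : ℝ) - 1)
    (a b : ι) : ⟪X a, X b⟫_ℝ = Q a b := by
  let o := stdOrthonormalBasis ℝ V
  have g1 : ∀ a b, ∑ k, ⟪X a, X k⟫_ℝ * ⟪X b, X k⟫_ℝ = ⟪X a, X b⟫_ℝ := fun a b => by
    rw [h, perp_of_gram h1 h, zero_mul, sub_zero]
  have g2 : ∀ a b, ∑ k, Q b k * ⟪X a, X k⟫_ℝ = ⟪X a, X b⟫_ℝ := fun a b => by
    simp only [← real_inner_smul_right, ← inner_sum, hp]
  have g0 : ∀ v : V, ∑ i, ⟪o i, v⟫_ℝ * ⟪o i, v⟫_ℝ = ⟪v, v⟫_ℝ := fun v => by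
    rw [← o.sum_inner_mul_inner]
    exact sum_congr rfl fun i _ => by rw [real_inner_comm]
  have g3 : ∑ a, ⟪X a, X a⟫_ℝ = ∑ a, Q a a := by
    simp only [← g0 (X _)]
    rw [sum_comm, hd, ← h1, ← g0 n]
    simp only [h, sum_sub_distrib, real_inner_self_eq_norm_sq, o.orthonormal.1]
    simp
  have g4 : ∑ a, ∑ k, (⟪X a, X k⟫_ℝ - Q a k) ^ 2 = 0 := by
    have : ∀ a, ∑ k, (⟪X a, X k⟫_ℝ - Q a k) ^ 2 = Q a a - ⟪X a, X a⟫_ℝ := fun a => by
      have e : ∀ k, (⟪X a, X k⟫_ℝ - Q a k) ^ 2 =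
          ⟪X a, X k⟫_ℝ * ⟪X a, X k⟫_ℝ - 2 * (Q a k * ⟪X a, X k⟫_ℝ) + Q a k * Q k a := fun k => by
        rw [hQ.symm k a]; ring
      simp only [e, sum_add_distrib, sum_sub_distrib, ← mul_sum, g1, g2, hQ.idem]; ring
    simp only [this, sum_sub_distrib, g3, sub_self]
  have h1 := (sum_eq_zero_iff_of_nonneg fun a _ => sum_nonneg fun k _ => sq_nonneg _).1 g4 a
    (mem_univ a)
  have h2 := (sum_eq_zero_iff_of_nonneg fun k _ => sq_nonneg _).1 h1 b (mem_univ b)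
  exact sub_eq_zero.1 (pow_eq_zero_iff two_ne_zero |>.1 h2)

namespace Hyp
variable (h : Hyp I e Θ ν x) (F : Frm I e P c)
  (hd : ∀ y, ∑ a, P a a y = (Module.finrank ℝ V : ℝ) - 1)
include h F hd

theorem imm : Imm I e P Θ x := ⟨h.sm, (h.nrm.and h.gram).mono fun y hy =>
  gram_eq_of (F.pr y) hy.1 hy.2 (fun a => F.projD a Θ y) (hd y)⟩

variable (L : LC I e P c Γ)
include L

theorem sff_eq (a b : ι) :
    sff I e Γ Θ a b x = -⟪dv I (e b) Θ x, dv I (e a) ν x⟫_ℝ • ν x := by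
  have hs := h.sm.self_of_nhds
  have ht := (h.nrm.and h.gram).mono fun y hy => perp_of_gram hy.1 hy.2
  have h1 : ⟪sff I e Γ Θ a b x, ν x⟫_ℝ = -⟪dv I (e b) Θ x, dv I (e a) ν x⟫_ℝ := by
    have := dv_ip (e a) (F.sD b hs) h.sn
    rw [dv_ev_const (ht.mono fun y hy => hy b)] at this
    simp only [sff, inner_sub_left, sum_inner, real_inner_smul_left, ht.self_of_nhds, mul_zero,
      sum_const_zero]
    linarith
  refine ext_inner_right ℝ fun w => ?_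
  have h2 := h.gram.self_of_nhds (sff I e Γ Θ a b x) w
  simp only [(h.imm F hd).perp L F, zero_mul, sum_const_zero, h1] at h2
  rw [real_inner_smul_left, real_inner_comm w (ν x)]
  linarith

theorem Rm_eq {B : ι → ι → ℝ} (hB : ∀ a b, ⟪dv I (e b) Θ x, dv I (e a) ν x⟫_ℝ = B a b)
    (a b m l : ι) : Rm I e c Γ a b m l x = B b m * B a l - B a m * B b l := by
  simp only [(h.imm F hd).gauss L F, h.sff_eq F hd L, real_inner_smul_left, real_inner_smul_right,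
    h.nrm.self_of_nhds, hB]
  ring

end Hyp

/-! ### the profile -/

/-- the radius of the neck -/
def rd (ε σ : ℝ) : ℝ := √(σ ^ 2 + ε ^ 2)

/-- the height of the neck -/
def hgt (ε σ : ℝ) : ℝ := ε * Real.arsinh (σ / ε)

section prof
variable {σ : ℝ}

theorem rd_sq (ε σ : ℝ) : rd ε σ ^ 2 = σ ^ 2 + ε ^ 2 := Real.sq_sqrt (by positivity)

theorem cd_rd (h : 0 < rd ε σ) : ContDiffAt ℝ ∞ (rd ε) σ :=
  ContDiffAt.sqrt (by fun_prop) (Real.sqrt_pos.1 h).ne'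

theorem cont_rd (ε : ℝ) : Continuous (rd ε) := by unfold rd; fun_prop

theorem der_rd (h : 0 < rd ε σ) : HasDerivAt (rd ε) (σ / rd ε σ) σ := by
  refine ((((hasDerivAt_id σ).fun_pow 2).add_const (ε ^ 2)).sqrt
    (Real.sqrt_pos.1 h).ne').congr_deriv ?_
  simp only [rd, id]; ring

theorem cd_hgt (ε : ℝ) : ContDiff ℝ ∞ (hgt ε) :=
  contDiff_const.mul (Real.contDiff_arsinh.comp (contDiff_id.div_const ε))

theorem der_hgt (h0 : 0 ≤ ε) (σ : ℝ) : HasDerivAt (hgt ε) (ε / rd ε σ) σ := by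
  rcases h0.eq_or_lt with rfl | h0
  · simpa [show hgt 0 = fun _ => 0 from funext fun _ => zero_mul _] using hasDerivAt_const σ (0 : ℝ)
  refine (((Real.hasDerivAt_arsinh (σ / ε)).comp σ ((hasDerivAt_id σ).div_const ε)).const_mul
    ε).congr_deriv ?_
  have : rd ε σ = ε * √(1 + (σ / ε) ^ 2) := by
    rw [rd, ← Real.sqrt_sq h0.le, ← Real.sqrt_mul (sq_nonneg _), Real.sqrt_sq h0.le]
    congr 1; field_simp; ring
  rw [this]; field_simp

theorem der_rd' (h : 0 < rd ε σ) : HasDerivAt (fun σ => σ / rd ε σ) (ε ^ 2 / rd ε σ ^ 3) σ := by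
  refine ((hasDerivAt_id σ).fun_div (der_rd h) h.ne').congr_deriv ?_
  have := rd_sq ε σ
  simp only [id]; field_simp; linarith

theorem der_hgt' (h : 0 < rd ε σ) :
    HasDerivAt (fun σ => -(ε / rd ε σ)) (ε * σ / rd ε σ ^ 3) σ := by
  refine ((hasDerivAt_const σ ε).fun_div (der_rd h) h.ne').fun_neg.congr_deriv ?_
  field_simp; ring

end prof

theorem dv_der {v : (x : M) → TangentSpace I x} {g : ℝ → ℝ} {g' : ℝ} (hs : SA I s x)
    (hg : HasDerivAt g g' (s x)) : dv I v (fun y => g (s y)) x = g' * dv I v s x := by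
  rw [Sob92.dv_comp hs.md hg.hasFDerivAt]; simp [mul_comm]

/-- the pair `(a, b • θ)` -/
def wp (a b : M → ℝ) (θ : M → V) (y : M) : WithLp 2 (ℝ × V) := WithLp.toLp 2 (a y, b y • θ y)

theorem sa_wp {a b : M → ℝ} (ha : SA I a x) (hb : SA I b x) (hθ : SA I θ x) : SA I (wp a b θ) x :=
  SA.clm (WithLp.prodContinuousLinearEquiv 2 ℝ ℝ V).symm.toContinuousLinearMap
    (ha.prodMk_space (hb.smul hθ))

theorem dv_wp {v : (x : M) → TangentSpace I x} {a b : M → ℝ} (ha : SA I a x) (hb : SA I b x)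
    (hθ : SA I θ x) : dv I v (wp a b θ) x =
      WithLp.toLp 2 (dv I v a x, dv I v b x • θ x + b x • dv I v θ x) := by
  rw [← Sob92.dv_smul hb.md hθ.md, ← Sob92.dv_prod ha.md (hb.smul hθ).md]
  exact Sob92.dv_clm (WithLp.prodContinuousLinearEquiv 2 ℝ ℝ V).symm.toContinuousLinearMap
    (SA.md (ha.prodMk_space (hb.smul hθ)))

variable (I) in
/-- at `y` the metric is `ds² + r² g_S` in the coordinates `(s, θ)` -/
structure Wq (e : ι → (x : M) → TangentSpace I x) (s : M → ℝ) (θ : M → V) (r : ℝ) (y : M) :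
    Prop where
  ss : SA I s y
  sθ : SA I θ y
  pos : 0 < r
  nrm : ‖θ y‖ = 1
  g11 : ∑ a, dv I (e a) s y ^ 2 = 1
  g12 : ∀ v, ∑ a, dv I (e a) s y * ⟪v, dv I (e a) θ y⟫_ℝ = 0
  g22 : ∀ v w, r ^ 2 * ∑ a, ⟪v, dv I (e a) θ y⟫_ℝ * ⟪w, dv I (e a) θ y⟫_ℝ =
    ⟪v, w⟫_ℝ - ⟪v, θ y⟫_ℝ * ⟪w, θ y⟫_ℝ

theorem Wq.one {r : ℝ} (h : Wq I e s θ r x) : ⟪θ x, θ x⟫_ℝ = 1 := by
  rw [real_inner_self_eq_norm_sq, h.nrm, one_pow]

theorem Wq.perp {r : ℝ} (h : Wq I e s θ r x) (a : ι) : ⟪dv I (e a) θ x, θ x⟫_ℝ = 0 := by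
  have := perp_of_gram (X := fun a => r • dv I (e a) θ x) h.one (fun v w => by
    rw [← h.g22, mul_sum]
    exact sum_congr rfl fun a _ => by simp only [real_inner_smul_right]; ring) a
  rwa [real_inner_smul_left, mul_eq_zero, or_iff_right h.pos.ne'] at this

variable (h0 : 0 ≤ ε) (h : ∀ᶠ y in 𝓝 x, Wq I e s θ (rd ε (s y)) y)
include h0 h

theorem hyp_wq : Hyp I e (wp (fun y => hgt ε (s y)) (fun y => rd ε (s y)) θ)
    (wp (fun y => s y / rd ε (s y)) (fun y => -(ε / rd ε (s y))) θ) x := by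
  have a1 : ∀ y, Wq I e s θ (rd ε (s y)) y → SA I (fun y => hgt ε (s y)) y ∧
      SA I (fun y => rd ε (s y)) y := fun y hy =>
    ⟨(cd_hgt ε).contDiffAt.comp_contMDiffAt hy.ss, (cd_rd hy.pos).comp_contMDiffAt hy.ss⟩
  have k := h.self_of_nhds
  refine ⟨h.mono fun y hy => sa_wp (a1 y hy).1 (a1 y hy).2 hy.sθ,
    sa_wp ((contDiffAt_id.div (cd_rd k.pos) k.pos.ne').comp_contMDiffAt k.ss)
      ((contDiffAt_const.div (cd_rd k.pos) k.pos.ne').neg.comp_contMDiffAt k.ss) k.sθ,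
    h.mono fun y hy => ?_, h.mono fun y hy v w => ?_⟩
  · have := rd_sq ε (s y)
    have := hy.pos
    simp only [wp, WithLp.prod_inner_apply, real_inner_smul_left, real_inner_smul_right, hy.one,
      Real.inner_apply]
    field_simp; linarith
  · have b1 := rd_sq ε (s y)
    have b2 := hy.pos
    have b3 : ∀ a, ⟪v, dv I (e a) (wp (fun y => hgt ε (s y)) (fun y => rd ε (s y)) θ) y⟫_ℝ *
        ⟪w, dv I (e a) (wp (fun y => hgt ε (s y)) (fun y => rd ε (s y)) θ) y⟫_ℝ =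
        (ε * v.ofLp.1 + s y * ⟪v.ofLp.2, θ y⟫_ℝ) * (ε * w.ofLp.1 + s y * ⟪w.ofLp.2, θ y⟫_ℝ) /
          rd ε (s y) ^ 2 * dv I (e a) s y ^ 2
        + (ε * v.ofLp.1 + s y * ⟪v.ofLp.2, θ y⟫_ℝ) * (dv I (e a) s y * ⟪w.ofLp.2, dv I (e a) θ y⟫_ℝ)
        + (ε * w.ofLp.1 + s y * ⟪w.ofLp.2, θ y⟫_ℝ) * (dv I (e a) s y * ⟪v.ofLp.2, dv I (e a) θ y⟫_ℝ)
        + rd ε (s y) ^ 2 * (⟪v.ofLp.2, dv I (e a) θ y⟫_ℝ * ⟪w.ofLp.2, dv I (e a) θ y⟫_ℝ) :=
      fun a => by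
        simp only [dv_wp (a1 y hy).1 (a1 y hy).2 hy.sθ, dv_der hy.ss (der_hgt h0 _),
          dv_der hy.ss (der_rd b2), WithLp.prod_inner_apply, inner_add_right,
          real_inner_smul_right, Real.inner_apply]
        field_simp; ring
    simp only [b3, sum_add_distrib, ← mul_sum, hy.g11, hy.g12, hy.g22]
    simp only [wp, WithLp.prod_inner_apply, real_inner_smul_right, Real.inner_apply]
    field_simp
    rw [b1]; ring

variable (F : Frm I e P c) (L : LC I e P c Γ) (hd : ∀ y, ∑ a, P a a y = Module.finrank ℝ V)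
include F L hd

/-- the curvature tensor of the pinched neck -/
theorem Rm_wq (a b m l : ι) : Rm I e c Γ a b m l x = (ε / rd ε (s x) ^ 2) ^ 2 *
    ((2 * dv I (e b) s x * dv I (e m) s x - P b m x) * (2 * dv I (e a) s x * dv I (e l) s x - P a l x)
    - (2 * dv I (e a) s x * dv I (e m) s x - P a m x) *
      (2 * dv I (e b) s x * dv I (e l) s x - P b l x)) := by
  have hd' : ∀ y, ∑ a, P a a y = (Module.finrank ℝ (WithLp 2 (ℝ × V)) : ℝ) - 1 := fun y => by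
    rw [hd, (WithLp.linearEquiv 2 ℝ (ℝ × V)).finrank_eq, Module.finrank_prod]; simp
  have H := hyp_wq h0 h
  have k := h.self_of_nhds
  have b1 := rd_sq ε (s x)
  have b2 := k.pos
  have a1 : SA I (fun y => hgt ε (s y)) x := (cd_hgt ε).contDiffAt.comp_contMDiffAt k.ss
  have a2 : SA I (fun y => rd ε (s y)) x := (cd_rd b2).comp_contMDiffAt k.ss
  have a3 : SA I (fun y => s y / rd ε (s y)) x :=
    (contDiffAt_id.div (cd_rd b2) b2.ne').comp_contMDiffAt k.ss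
  have a4 : SA I (fun y => -(ε / rd ε (s y))) x :=
    (contDiffAt_const.div (cd_rd b2) b2.ne').neg.comp_contMDiffAt k.ss
  rw [H.Rm_eq F hd' L (B := fun a b => ε / rd ε (s x) ^ 2 *
    (2 * dv I (e a) s x * dv I (e b) s x - P a b x)) fun a b => ?_]
  · ring
  rw [← (H.imm F hd').iso.self_of_nhds]
  simp only [dv_wp a1 a2 k.sθ, dv_wp a3 a4 k.sθ, dv_der k.ss (der_hgt h0 _), dv_der k.ss (der_rd b2),
    dv_der k.ss (der_rd' b2), dv_der k.ss (der_hgt' b2), WithLp.prod_inner_apply, inner_add_right,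
    inner_add_left, real_inner_smul_right, real_inner_smul_left, Real.inner_apply, k.one, k.perp,
    real_inner_comm _ (θ x), real_inner_comm (dv I (e a) θ x) (dv I (e b) θ x)]
  field_simp
  rw [b1]; ring

/-- **the pinched neck is scalar flat** -/
theorem scal_wq (h4 : Module.finrank ℝ V = 4) : scal I e c Γ x = 0 := by
  have k := h.self_of_nhds
  have b1 : ∀ a, ∑ b, P a b x * dv I (e b) s x = dv I (e a) s x := fun a => F.projD a s x
  have b2 : ∑ a, (2 * dv I (e a) s x * dv I (e a) s x - P a a x) = -2 := by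
    simp only [sum_sub_distrib, mul_assoc, ← sq, ← mul_sum, k.g11, hd, h4]; norm_num
  have b3 : ∀ a, ∑ b, (2 * dv I (e a) s x * dv I (e b) s x - P a b x) *
      (2 * dv I (e b) s x * dv I (e a) s x - P b a x) = P a a x := fun a => by
    have : ∀ b, (2 * dv I (e a) s x * dv I (e b) s x - P a b x) *
      (2 * dv I (e b) s x * dv I (e a) s x - P b a x) = 4 * dv I (e a) s x ^ 2 * dv I (e b) s x ^ 2
        - 4 * dv I (e a) s x * (P a b x * dv I (e b) s x) + P a b x * P b a x := fun b => by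
      rw [(F.pr x).symm b a]; ring
    simp only [this, sum_add_distrib, sum_sub_distrib, ← mul_sum, k.g11, b1, (F.pr x).idem]; ring
  simp only [scal, Rm_wq h0 h F L hd, ← mul_sum, sum_sub_distrib, ← sum_mul, b2, b3, hd, h4]
  norm_num

end Crest.Agent.X212.Mp86
end
end

-- ▼ part X212/Mp86/Ps

/-!
# Row 212 (helper86): curvature of the layers of a world: necks and uniform bounds
-/

set_option autoImplicit false
set_option linter.unusedSectionVars false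
noncomputable section
open Set Function Filter Topology Module
open scoped ContDiff Manifold InnerProductSpace
open Crest.Agent.R208.F (Ext pb)

namespace Crest.Agent.X212.Ps86
open An M Cyl58 Cyf70 Prm93 Sob92
open Met55 (Sp VF VJ atx Co dmp)
open Mp86 (scF scL Rp Wq rd)
open Line51 (Ln)
open Dr59 (mf)
open Num57 (e1 e2)
open Wz78 (SA)

section gen
variable {E H : Type} [NormedAddCommGroup E] [NormedSpace ℝ E] [TopologicalSpace H]
  {I : ModelWithCorners ℝ E H} {P : Type} [TopologicalSpace P] [ChartedSpace H P]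
  {E' H' : Type} [NormedAddCommGroup E'] [NormedSpace ℝ E'] [TopologicalSpace H']
  {J : ModelWithCorners ℝ E' H'} {Q : Type} [TopologicalSpace Q] [ChartedSpace H' Q]
  [IsManifold I 1 P] [IsManifold J 1 Q] {ι κ : Type} [Fintype ι] [Fintype κ] {f : Q → P} {y : Q} {k : κ → VF J Q} {e : ι → VF I P}

theorem co_dv {V V' : Type} [NormedAddCommGroup V] [NormedSpace ℝ V] [NormedAddCommGroup V']
    [NormedSpace ℝ V'] (hf : MDifferentiableAt J I f y)
    (h : Co (fun i => mf J I f y (atx k y i)) (atx e (f y))) {G : P → V} {G' : P → V'}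
    (hG : SA I G (f y)) (hG' : SA I G' (f y)) (l : V →L[ℝ] ℝ) (l' : V' →L[ℝ] ℝ) :
    ∑ a, l (dv I (e a) G (f y)) * l' (dv I (e a) G' (f y)) =
      ∑ i, l (dv J (k i) (fun x => G (f x)) y) * l' (dv J (k i) (fun x => G' (f x)) y) := by
  simp only [Eqv71.dv_comp_map hf hG.md, Eqv71.dv_comp_map hf hG'.md]
  exact (h (l ∘L mf I 𝓘(ℝ, V) G (f y) : E →L[ℝ] ℝ) (l' ∘L mf I 𝓘(ℝ, V') G' (f y) : E →L[ℝ] ℝ)).symm

theorem wq_push {V : Type} [NormedAddCommGroup V] [InnerProductSpace ℝ V]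
    (hf : MDifferentiableAt J I f y) (h : Co (fun i => mf J I f y (atx k y i)) (atx e (f y)))
    {s : P → ℝ} {θ : P → V} {s' : Q → ℝ} {θ' : Q → V} {r : ℝ} (hs : SA I s (f y))
    (hθ : SA I θ (f y)) (es : (fun x => s (f x)) =ᶠ[𝓝 y] s') (eθ : (fun x => θ (f x)) =ᶠ[𝓝 y] θ')
    (w : Wq J k s' θ' r y) : Wq I e s θ r (f y) := by
  have e0 : θ (f y) = θ' y := eθ.self_of_nhds
  refine ⟨hs, hθ, w.pos, e0 ▸ w.nrm, ?_, fun v => ?_, fun v v' => ?_⟩
  · have := co_dv hf h hs hs (.id ℝ ℝ) (.id ℝ ℝ)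
    simp only [dv_congr es, ContinuousLinearMap.id_apply, ← sq] at this
    rw [this, w.g11]
  · have := co_dv hf h hs hθ (.id ℝ ℝ) (innerSL ℝ v)
    simp only [dv_congr es, dv_congr eθ, ContinuousLinearMap.id_apply, innerSL_apply_apply] at this
    rw [this, w.g12]
  · have := co_dv hf h hθ hθ (innerSL ℝ v) (innerSL ℝ v')
    simp only [dv_congr eθ, innerSL_apply_apply] at this
    rw [this, w.g22, e0]

/-- the square norm of a two-form -/
def f2 (c : Ext E) (v : ι → E) : ℝ := ∑ a, ∑ b, e2 c (v a) (v b) ^ 2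

theorem f2_nonneg (c : Ext E) (v : ι → E) : 0 ≤ f2 c v := by unfold f2; positivity

variable [FiniteDimensional ℝ E] [FiniteDimensional ℝ E']

theorem f2_co {v : ι → E} {w : κ → E} (h : Co v w) (c : Ext E) : f2 c v = f2 c w := by
  have h1 : ∀ x, ∑ b, e2 c x (v b) ^ 2 = ∑ b, e2 c x (w b) ^ 2 := fun x => by
    simp only [Num57.e2_eq, sq]
    exact h (Line51.e1L (R208.F.ii x c)) (Line51.e1L (R208.F.ii x c))
  have h2 : ∀ x y, e2 c x y ^ 2 = e2 c y x ^ 2 := fun x y => by rw [Num57.e2_swap, neg_sq]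
  simp only [f2, h1]
  rw [Finset.sum_comm]
  simp only [h2 (v _), h1]

theorem f2_pb (A : E' →ₗ[ℝ] E) (c : Ext E) (v : ι → E') : f2 (pb A c) v = f2 c fun a => A (v a) := by
  simp only [f2, Line51.e2_pb]

theorem f2_zero (c : Ext E) : f2 c (fun _ : ι => 0) = 0 := by
  simp [f2, Num57.e2_eq, Num57.e1_eq]

theorem pr_sq_le {R : ι → ι → ℝ} (h : Wz78.Pr R) (θ : ι → ℝ) :
    ∑ a, (∑ b, R a b * θ b) ^ 2 ≤ ∑ a, θ a ^ 2 := by
  have e2 : ∑ a, (∑ b, R a b * θ b) ^ 2 = ∑ a, θ a * ∑ b, R a b * θ b := by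
    simp only [sq, Finset.sum_mul_sum]
    rw [Finset.sum_comm]
    refine Finset.sum_congr rfl fun a _ => ?_
    rw [Finset.sum_comm, Finset.mul_sum]
    refine Finset.sum_congr rfl fun b _ => ?_
    rw [← h.idem a b, Finset.sum_mul, Finset.mul_sum]
    exact Finset.sum_congr rfl fun k _ => by rw [h.symm a k]; ring
  have e3 : 0 ≤ ∑ a, (θ a - ∑ b, R a b * θ b) ^ 2 := Finset.sum_nonneg fun _ _ => sq_nonneg _
  simp only [sub_sq, Finset.sum_add_distrib, Finset.sum_sub_distrib, mul_assoc (2 : ℝ)] at e3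
  rw [← Finset.mul_sum, ← e2] at e3
  linarith

theorem pr_abs_le {R : ι → ι → ℝ} (h : Wz78.Pr R) (a b : ι) : |R a b| ≤ 1 := by
  classical
  have := (Finset.single_le_sum (fun _ _ => sq_nonneg _) (Finset.mem_univ a)).trans
    (pr_sq_le h (Pi.single b 1))
  simpa [Pi.single_apply] using this

/-- the curvature of a family of connections is jointly smooth -/
theorem jAt_F [I.Boundaryless] [IsManifold I ∞ P] {T lam : Type} [NormedAddCommGroup T]
    [NormedSpace ℝ T] [Fintype lam] {p : P → Matrix lam lam ℂ} {α : T → P → Ext E}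
    (ok : ∀ t, Ln.On I ⟨p, α t⟩ univ) {R : ι → ι → P → ℝ} {c : ι → ι → ι → P → ℝ}
    (F : Wz78.Frm I e R c) {t : T} {x : P} (sm : ∀ k, JAt I (fun s y => e1 (α s y) (e k y)) t x)
    (a b : ι) : JAt I (fun s y => e2 (Ln.F I ⟨p, α s⟩ y) (e a y) (e b y)) t x := by
  obtain ⟨V, u, h1, h2, -, h4⟩ := (ok t).exists_fr isOpen_univ (mem_univ x)
  have h5 : ∀ k, JAt I (fun s y => e1 ((Line51.th I u + α s) y) (e k y)) t x := fun k =>
    ((JAt.of_fixed (Line51.fsm_e1 (Line51.smAt_th (h4.sm x h2))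
      (.of_forall fun y => Line51.dg_th (U := univ) u y trivial) (F.se k x))).add
      (sm k)).congr_of_eventuallyEq (.of_forall fun z => Num57.e1_add _ _ _)
  refine ((((h5 b).dv (F.se a x)).sub ((h5 a).dv (F.se b x))).sub (ContMDiffAt.sum
    (t := Finset.univ) fun k _ => Pj41.FSm.mul' (JAt.of_fixed (F.sc a b k x))
      (h5 k))).congr_of_eventuallyEq ?_
  filter_upwards [(continuous_snd.tendsto (t, x)).eventually (h1.mem_nhds h2)] with z hz
  rw [Line51.Ln.Loc.F_eq (L := ⟨p, α z.1⟩) (h4.loc h1 hz :) ((ok _).sa _ trivial)]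
  exact Line51.e2_dM F ((Line51.smAt_th (h4.sm _ hz)).add ((ok _).sa _ trivial))
    (.of_forall fun y => ((Line51.dg_th u).add (ok _).dg) y trivial) a b

end gen

theorem cont_scF {E : Type} [NormedAddCommGroup E] [NormedSpace ℝ E] [FiniteDimensional ℝ E]
    [MeasurableSpace E] [BorelSpace E] {H : Type} [TopologicalSpace H] {I : ModelWithCorners ℝ E H}
    [I.Boundaryless] {P : Type} [TopologicalSpace P] [ChartedSpace H P] [IsManifold I ∞ P]
    [MeasurableSpace P] [BorelSpace P] [T2Space P] {ι : Type} [Fintype ι] (F : Fr I P ι) :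
    Continuous (scF F) := continuous_finsetSum _ fun a _ => continuous_finsetSum _ fun b _ =>
  continuous_iff_continuousAt.2 fun _ => ((Wz78.lc_gam F).sRm (Wz78.frm F) a b b a _).continuousAt

theorem fL_geo {Z : Mf 4} {ι lam : Type} [Fintype ι] [Fintype lam] [DecidableEq lam]
    {L : Ln Z.E Z.M lam} (h : L.On Z.I univ) {B : Base Z.M ι (lam ⊕ lam)} (hB : B.OK Z.I)
    (hl : B.l = L.l) (hi : B.il = Line51.iL lam) (F : Fr Z.I Z.M ι) (x : Z.M) (s : ι × ι) :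
    Wz78.fL B (L.geo F) x s = e2 (L.F Z.I x) (F.e s.1 x) (F.e s.2 x) := by
  have := h.curv_geo isOpen_univ F (mem_univ x) s.1 s.2
  rw [← hl, ← hi] at this
  rw [Wz78.fL, mul_assoc]
  erw [this]
  rw [mul_smul_comm, ← mul_assoc, hB.ilsq, map_smul, neg_one_mul, map_neg]
  simp only [@Wz78.trE_eq _ _ (_), hB.lrk, smul_eq_mul]
  ring

variable {X : Mf 4} {A κ : Type} [Fintype A] [Fintype κ] {M : Mark X A κ}

/-! ### the model necks -/

section model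
variable {a : A} {t : ℝ} {q : (M.bn a).Y.M × ℝ}

theorem sm_th (hp : M.pin a) : ContMDiff (M.bn a).Y.I 𝓘(ℝ, V4) ∞ (M.th a) := by
  have h : ContMDiff _ _ ∞ fun y : (M.bn a).Y.M => Real.exp (y, (0 : ℝ)).2 • M.th a (y, (0 : ℝ)).1 :=
    (M.rnd a hp).oe.contMDiff.comp (contMDiff_id.prodMk contMDiff_const)
  simpa using h

theorem dv_nF {V : Type} [NormedAddCommGroup V] [NormedSpace ℝ V] (i : Option κ)
    (u : (M.bn a).Y.M × ℝ → V) : dv (IC (M.bn a).Y.I) (M.nF a t i) u q =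
      M.wt a t q.2 i • dv (IC (M.bn a).Y.I) (ce (M.gY a).e i) u q := map_smul _ _ _

theorem wq_nF (hp : M.pin a) (ho : (t, q.2) ∈ Off) :
    Wq (IC (M.bn a).Y.I) (M.nF a t) Prod.snd (fun q => M.th a q.1) (rad t q.2) q := by
  have h1 : SA (IC (M.bn a).Y.I) Prod.snd q := contMDiffAt_snd
  have h2 : SA (IC (M.bn a).Y.I) (fun q => M.th a q.1) q := (sm_th hp _).comp q contMDiffAt_fst
  have h3 := rad_pos ho
  refine ⟨h1, h2, h3, (M.rnd a hp).nrm _, ?_, fun v => ?_, fun v w => ?_⟩ <;>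
    simp only [Fintype.sum_option, dv_nF, dv_none h1.md, dv_some h1.md, dv_none h2.md,
      dv_some h2.md, Mark.wt_none' hp, Mark.wt_some' hp, deriv_id'', deriv_const, dv_const,
      inner_smul_right]
  · simp
  · simp
  · rw [← (M.rnd a hp).gram, inner_zero_right, mul_zero, zero_mul, zero_add, Finset.mul_sum]
    exact Finset.sum_congr rfl fun k _ => by simp only [Pre.D_def]; field_simp

/-- arc length on a cylindrical neck, centred at the height `s₀` -/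
def str (a : A) (t : ℝ) (s₀ : ℝ) : (M.bn a).Y.M × ℝ → (M.bn a).Y.M × ℝ :=
  Prod.map id fun s => len t (decide (0 < s₀)) s + -len t (decide (0 < s₀)) s₀

theorem mem_dom {t s : ℝ} (h : (t, s) ∈ Off) : s ∈ dom t (decide (0 < s)) := by
  refine h.imp id fun h => ?_
  by_cases k : 0 < s
  · simp [k]
  · simpa [k] using lt_of_le_of_ne (not_lt.1 k) h

theorem str_self : str a t q.2 q = (q.1, 0) := Prod.ext rfl (add_neg_cancel _)

theorem mf_str (hp : ¬M.pin a) {s₀ : ℝ} (h : q.2 ∈ dom t (decide (0 < s₀))) (i : Option κ) :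
    mf (IC (M.bn a).Y.I) (IC (M.bn a).Y.I) (str a t s₀) q (M.nf a t q i) =
      atx (ce (M.gY a).e) (str a t s₀ q) i := by
  have h1 := ((hasDerivAt_len h).add_const (-len t (decide (0 < s₀)) s₀)).hasFDerivAt.hasMFDerivAt
  have h2 := ((hasMFDerivAt_id (I := (M.bn a).Y.I) q.1).prodMap h1).mfderiv
  rw [h1.mfderiv, mfderiv_id] at h2
  refine (DFunLike.congr_fun h2 _).trans ?_
  have h3 := (sig_pos (dom_off h)).ne'
  cases i
  · rw [Mark.nf, Mark.wt_none hp]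
    exact Prod.ext (smul_zero _) (show sig t q.2 * 1 * (sig t q.2)⁻¹ = 1 by simp [h3])
  · rw [Mark.nf, Mark.wt_some hp, one_smul]
    exact Prod.ext rfl (zero_smul ℝ _)

theorem rp_str (hp : ¬M.pin a) (ho : (t, q.2) ∈ Off) : Rp (IC (M.bn a).Y.I) (IC (M.bn a).Y.I)
    (M.nf a t) (str a t q.2) (Cyf70.cyl (M.gY a)).e q := by
  have h1 : Up (len t (decide (0 < q.2))) (dom t (decide (0 < q.2))) :=
    .of_hasDerivAt (fun x hx => (contDiffOn_len _ _).contDiffAt ((isOpen_dom _ _).mem_nhds hx))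
      (fun x hx => hasDerivAt_len hx) fun x hx => inv_pos.2 (sig_pos (dom_off hx))
  refine ⟨ld_prodMap (ld_id q.1) (((Up.add_const _ univ).comp h1 (mapsTo_univ _ _)).ld
    (isOpen_dom _ _) (mem_dom ho)), ?_⟩
  filter_upwards [((isOpen_dom _ _).preimage continuous_snd).mem_nhds (mem_dom ho)] with y hy
  rw [show (fun i => dmp _ _ (str a t q.2) y (M.nf a t y i)) = _ from funext (mf_str hp hy)]
  exact Co.refl _

theorem f2_cy {lam : Type} [Fintype lam] [DecidableEq lam] (N : ML M lam) :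
    f2 ((N.cy a).ln.F (IC (M.bn a).Y.I) q) (M.nf a t q) =
      f2 ((N.LY a).F (M.bn a).Y.I q.1) fun i => (M.nf a t q i).1 := by
  rw [Cy.ln, show (N.cy a).L = N.LY a from rfl, (N.okY a).F_pull isOpen_univ isOpen_univ ⟨fun _ _ => contMDiffAt_fst, mapsTo_univ _ _⟩
    (mem_univ q), Dr59.pm_apply, f2_pb]
  exact congrArg _ (funext fun i => DFunLike.congr_fun mfderiv_fst _)

theorem f2_cy_pin {lam : Type} [Fintype lam] [DecidableEq lam] (N : ML M lam) (hp : M.pin a) :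
    f2 ((N.cy a).ln.F (IC (M.bn a).Y.I) q) (M.nf a t q) = 0 := by
  obtain ⟨p₀, h⟩ := N.cst a hp
  have e : (N.LY a).pull (M.bn a).Y.I (M.bn a).Y.I (fun _ => q.1) = N.LY a := by
    rw [h]; exact congrArg (Ln.mk _) (funext fun _ => map_zero _)
  rw [f2_cy, ← e, (N.okY a).F_pull isOpen_univ isOpen_univ
    ⟨fun _ _ => contMDiffAt_const, mapsTo_univ _ _⟩ (mem_univ q.1), Dr59.pm_apply, f2_pb]
  exact (congrArg _ (funext fun i => DFunLike.congr_fun mfderiv_const _)).trans (f2_zero _)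

theorem f2_cy_cyl {lam : Type} [Fintype lam] [DecidableEq lam] (N : ML M lam) (hp : ¬M.pin a) :
    f2 ((N.cy a).ln.F (IC (M.bn a).Y.I) q) (M.nf a t q) =
      f2 ((N.LY a).F (M.bn a).Y.I q.1) (atx (M.gY a).e q.1) := by
  refine f2_cy N |>.trans (f2_co (fun α β => ?_) _)
  simp [Fintype.sum_option, Mark.nf, Mark.wt_some hp, atx, ce]

end model

/-! ### necks of a layer -/

variable (M) in
/-- `q` is an inner point of a model neck of the layer `c` at the parameter `t` -/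
structure Nk (c : M.Cl) (t : A → ℝ) (a : A) (q : (M.bn a).Y.M × ℝ) : Prop where
  lt : M.Lt c.1 t a
  ab : |q.2| < 1
  off : (Mark.tv c.1 t a, q.2) ∈ Off

section neck
variable {W : World M} {m c : M.Cl} {p : Prm A} {a : A} {q : (M.bn a).Y.M × ℝ}

theorem tv_mem {σ : Set A} {t : A → ℝ} (h : M.Lt σ t a) : Mark.tv σ t a ∈ Icc (1 / 2 : ℝ) 1 := by
  rcases h with h | h
  · rw [Mark.tv_mem h]; norm_num
  · rw [Mark.tv_fr h.1]; exact h.2.1

theorem Nk.ev {t : A → ℝ} (h : Nk M c t a q) : ∀ᶠ y in 𝓝 q, Nk M c t a y := by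
  filter_upwards [(isOpen_lt (f := fun y : (M.bn a).Y.M × ℝ => |y.2|) (by fun_prop)
    continuous_const).mem_nhds h.ab, (isOpen_off.preimage (f := fun y : (M.bn a).Y.M × ℝ =>
      (Mark.tv c.1 t a, y.2)) (by fun_prop)).mem_nhds h.off] with y h1 h2 using ⟨h.lt, h1, h2⟩

theorem Nk.ld {t : A → ℝ} (h : Nk M c t a q) (C : Caps M) :
    IsLocalDiffeomorphAt (IC (M.bn a).Y.I) (C.Z c).I ∞ (C.nj c a) q := C.ld_nj (h.lt.not_mem h.off)

variable (W m) (h : Nk M c p.2 a q)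
include h

theorem Nk.co : Co (fun i => mf (IC (M.bn a).Y.I) (W.Z c).I (W.nj c a) q
    (M.nf a (Mark.tv c.1 p.2 a) q i)) (atx ((W.L m c).e p) (W.nj c a q)) :=
  W.neck' m h.lt h.ab.le h.off p.1

theorem Nk.rp : Rp (W.Z c).I (IC (M.bn a).Y.I) (M.nf a (Mark.tv c.1 p.2 a)) (W.nj c a)
    ((W.L m c).e p) q := ⟨h.ld _, h.ev.mono fun _ hy => hy.co W m⟩

/-- polar coordinates on a pinched neck -/
theorem Nk.wq (hp : M.pin a) : ∃ s θ, s (W.nj c a q) = q.2 ∧ ∀ᶠ z in 𝓝 (W.nj c a q),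
    Wq (W.Z c).I ((W.L m c).e p) s (θ : _ → V4) (rd (1 - Mark.tv c.1 p.2 a) (s z)) z := by
  obtain ⟨Φ, hx, hΦ⟩ := h.ld W.toCaps
  have e1 : ∀ y ∈ Φ.source, Φ.symm (W.nj c a y) = y := fun y hy => by
    rw [hΦ hy]; exact Φ.left_inv hy
  have ht : W.nj c a q ∈ Φ.target := hΦ hx ▸ Φ.map_source hx
  have hc : Tendsto Φ.symm (𝓝 (W.nj c a q)) (𝓝 q) := by
    simpa only [e1 q hx] using (Met55.pd_ld' ht).contMDiffAt.continuousAt.tendsto
  refine ⟨fun z => (Φ.symm z).2, fun z => M.th a (Φ.symm z).1, congrArg _ (e1 q hx), ?_⟩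
  filter_upwards [Φ.open_target.mem_nhds ht, hc.eventually h.ev] with z hz h1
  have h2 := Φ.map_target hz
  have e2 : W.nj c a (Φ.symm z) = z := (hΦ h2).trans (Φ.right_inv hz)
  have h3 : ContMDiffAt _ _ ∞ Φ.symm (W.nj c a (Φ.symm z)) :=
    e2.symm ▸ (Met55.pd_ld' hz).contMDiffAt
  have h4 := eventually_of_mem (Φ.open_source.mem_nhds h2) e1
  have := wq_push (k := M.nF a _) ((h1.ld _).mdifferentiableAt (by simp)) (h1.co W m)
    (s := fun z => (Φ.symm z).2) (θ := fun z => M.th a (Φ.symm z).1)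
    (contMDiffAt_snd.comp _ h3) ((sm_th hp _).comp _ (contMDiffAt_fst.comp _ h3))
    (h4.mono fun y hy => congrArg Prod.snd hy) (h4.mono fun y hy => congrArg (M.th a ·.1) hy)
    (wq_nF hp h1.off)
  rwa [e2] at this

variable (hO : p ∈ M.O c.1)
include hO

omit h in
theorem F_e : (W.F m c p).e = (W.L m c).e p := (W.L m c).F_e (Mark.mem_Ω _ hO)

/-- **pinched necks are scalar flat** -/
theorem Nk.sc_pin (hp : M.pin a) : scF (W.F m c p) (W.nj c a q) = 0 := by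
  obtain ⟨s, θ, -, h1⟩ := h.wq W m hp
  rw [← F_e W m hO] at h1
  exact Mp86.scal_wq (sub_nonneg.2 (tv_mem h.lt).2) h1 (Wz78.frm _) (Wz78.lc_gam _)
    (fun y => (Int54.fr_rk _ y).trans (by rw [(W.Z c).dim]; simp)) (by simp)

/-- the curvature tensor of a pinched neck -/
theorem Nk.Rm_pin (hp : M.pin a) (i j k l : Option κ) :
    |Wz78.Rm (W.Z c).I (W.F m c p).e (W.F m c p).c (W.F m c p).Gam i j k l (W.nj c a q)| ≤
      18 * ((1 - Mark.tv c.1 p.2 a) / rad (Mark.tv c.1 p.2 a) q.2 ^ 2) ^ 2 := by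
  obtain ⟨s, θ, h0, h1⟩ := h.wq W m hp
  rw [← F_e W m hO] at h1
  rw [Mp86.Rm_wq (sub_nonneg.2 (tv_mem h.lt).2) h1 (Wz78.frm _) (Wz78.lc_gam _)
    (fun y => (Int54.fr_rk _ y).trans (by rw [(W.Z c).dim]; simp)), h0, abs_mul,
    abs_of_nonneg (sq_nonneg _), mul_comm]
  refine mul_le_mul_of_nonneg_right ?_ (sq_nonneg _)
  have b1 : ∀ i, |dv (W.Z c).I ((W.F m c p).e i) s (W.nj c a q)| ≤ 1 := fun i =>
    (sq_le_one_iff_abs_le_one _).1 (h1.self_of_nhds.g11 ▸ Finset.single_le_sum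
      (f := fun i => dv (W.Z c).I ((W.F m c p).e i) s (W.nj c a q) ^ 2) (fun _ _ => sq_nonneg _)
      (Finset.mem_univ i))
  have b2 : ∀ i j, |2 * dv (W.Z c).I ((W.F m c p).e i) s (W.nj c a q) *
      dv (W.Z c).I ((W.F m c p).e j) s (W.nj c a q) - (W.F m c p).P i j (W.nj c a q)| ≤ 3 :=
    fun i j => (abs_sub _ _).trans (by
      rw [abs_mul, abs_mul, abs_two]
      nlinarith [mul_le_one₀ (b1 i) (abs_nonneg _) (b1 j), 
        pr_abs_le (Int54.fr_pr (W.F m c p) (W.nj c a q)) i j])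
  have b3 : ∀ x y : ℝ, |x| ≤ 3 → |y| ≤ 3 → |x * y| ≤ 9 := fun x y hx hy => by
    rw [abs_mul]; nlinarith [abs_nonneg x, abs_nonneg y]
  exact (abs_sub _ _).trans (by linarith [b3 _ _ (b2 j k) (b2 i l), b3 _ _ (b2 i k) (b2 j l)])

theorem Nk.sc_cyl (hp : ¬M.pin a) :
    scF (W.F m c p) (W.nj c a q) = scF (Cyf70.cyl (M.gY a)) (q.1, 0) := by
  rw [← str_self (t := Mark.tv c.1 p.2 a)]
  exact (rp_str hp h.off).sc_eq (F_e W m hO ▸ h.rp W m)

omit hO in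
theorem Nk.F_eq {lam : Type} [Fintype lam] [DecidableEq lam] {N : ML M lam} (Λ : Lns W N) :
    Dr59.pm (IC (M.bn a).Y.I) (W.Z c).I (W.nj c a) (((Λ.Λ m c).ln p).F (W.Z c).I) q =
      (N.cy a).ln.F (IC (M.bn a).Y.I) q := by
  obtain ⟨U, h1, hU, hq⟩ := eventually_nhds_iff.1 h.ev
  have h2 : ∀ y ∈ U, (M.bn a).j y ∉ M.sys.cores c.1 := fun y hy => (h1 y hy).lt.not_mem (h1 y hy).off
  let L₀ : Ln _ _ lam := ⟨fun y => N.p ((M.bn a).j y), 
    Line51.th (IC (M.bn a).Y.I) (N.m a) + (N.cy a).ln.a⟩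
  have i1 : Line51.Iso (IC (M.bn a).Y.I) L₀ (N.cy a).ln (N.m a) U :=
    ⟨(N.um a).mono fun y hy => (h1 y hy).ab.le.trans (by norm_num), fun _ _ => rfl⟩
  have i2 : Line51.Iso (IC (M.bn a).Y.I) L₀ (((Λ.Λ m c).ln p).pull _ _ (W.nj c a))
      (fun y => Λ.v m c ((M.bn a).j y)) U :=
    ⟨(Λ.uni m c).comp ⟨fun y _ => ((M.bn a).oe.loc y).contMDiffAt, fun y hy =>
      (W.mem_src c).2 (h2 y hy)⟩, fun y hy => Λ.neck' m (h1 y hy).lt (h1 y hy).ab.le (h2 y hy) p.1⟩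
  rw [← (i1.symm.trans i2).F_eq hU ((Cy.ln_on (N.okY a)).mono (subset_univ _)) hq,
    ((Λ.Λ m c).ln_on p).F_pull isOpen_univ hU
      ⟨fun y hy => (W.ld_nj (h2 y hy)).contMDiffAt, mapsTo_univ _ _⟩ hq]

omit hO in
theorem Nk.f2_eq {lam : Type} [Fintype lam] [DecidableEq lam] {N : ML M lam} (Λ : Lns W N) :
    f2 (((Λ.Λ m c).ln p).F (W.Z c).I (W.nj c a q)) (atx ((W.L m c).e p) (W.nj c a q)) =
      f2 ((N.cy a).ln.F (IC (M.bn a).Y.I) q) (M.nf a (Mark.tv c.1 p.2 a) q) := by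
  rw [← h.F_eq W m Λ, Dr59.pm_apply, f2_pb, ← f2_co (h.co W m)]
  rfl

end neck

/-! ### the thick part -/

section thick
variable (C : Caps M) (c : M.Cl)

/-- parameters and points away from the long necks -/
def Th (U : Set ℝ) (δ : ℝ) : Set (Prm A × (C.Z c).M) :=
  (U ×ˢ Icc 0 1) ×ˢ (thin C c δ)ᶜ ∩ {q | ∀ a ∈ M.sys.fr c.1,
    q.1.2 a ≤ 1 - δ ∨ q.2 ∉ C.φ c '' (M.bn a).slab (Ioo (-δ) δ)}

variable {c} {U : Set ℝ} {δ : ℝ}

theorem isOpen_slab {a : A} (ha : a ∈ M.sys.fr c.1) {s : Set ℝ} (hs : IsOpen s) :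
    IsOpen (C.φ c '' (M.bn a).slab s) :=
  (C.φ c).toOpenPartialHomeomorph.isOpen_image_of_subset_source ((M.bn a).isOpen_slab hs)
    fun _ hx => (C.mem_src c).2 (Mark.fr_not_mem ha ((M.bn a).slab_subset _ hx))

theorem isCompact_Th (hU : IsCompact U) (hδ : 0 < δ) : IsCompact (Th C c U δ) := by
  refine ((hU.prod isCompact_Icc).prod (isCompact_thick C hδ)).inter_right ?_
  simp only [ofPred_forall, ofPred_or]
  exact isClosed_iInter fun a => isClosed_iInter fun ha => (isClosed_le ((continuous_apply a).comp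
    (continuous_snd.comp continuous_fst)) continuous_const).union
    ((isOpen_slab C ha isOpen_Ioo).isClosed_compl.preimage continuous_snd)

theorem Th_subset (hδ : 0 < δ) : Th C c U δ ⊆ M.Ω c.1 (C.φ c) := fun _ h a ha =>
  (h.2 a ha).imp (fun k => by linarith) fun k k' => k (image_mono ((M.bn a).slab_zero ▸
    (M.bn a).slab_mono (singleton_subset_iff.2 ⟨by linarith, hδ⟩)) k')

/-- a point is in the thick part or on a long neck -/
theorem th_or (hδ : δ ≤ 1 / 2) {p : Prm A} (hu : p.1 ∈ U) (hp : p.2 ∈ M.sys.Par)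
    {z : (C.Z c).M} (hz : (p, z) ∈ M.Ω c.1 (C.φ c)) : (p, z) ∈ Th C c U δ ∨
    ∃ a q, C.nj c a q = z ∧ Nk M c p.2 a q ∧ |q.2| < δ ∧ 1 - δ < Mark.tv c.1 p.2 a ∧
      (a ∈ c.1 → ¬M.pin a) := by
  by_cases h1 : z ∈ thin C c δ
  · obtain ⟨_, k, rfl⟩ := h1
    obtain ⟨a, ha, q, hq, rfl⟩ := mem_iUnion₂.1 k
    exact .inr ⟨a, q, rfl, ⟨.inl ha.1, by linarith [hq.2.2], .inr hq.2.1⟩, hq.2.2, by
      rw [Mark.tv_mem ha.1]; linarith [hq.2.2, abs_nonneg q.2], fun _ => ha.2⟩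
  refine or_iff_not_imp_left.2 fun h2 => ?_
  have h3 := fun k => h2 ⟨⟨⟨hu, fun a => (hp.1 a).1, fun a => (hp.1 a).2⟩, h1⟩, k⟩
  simp only [mem_ofPred_eq, not_forall, not_or, not_le, not_not, imp_false] at h3
  obtain ⟨a, ha, h4, _, ⟨q, hq, rfl⟩, rfl⟩ := h3
  have h5 : |q.2| < δ := abs_lt.2 hq.2
  refine ⟨a, q, rfl, ⟨Mark.lt_of_br hp ha (by linarith), by linarith, ?_⟩, h5,
    (Mark.tv_fr ha _).symm ▸ h4, fun k => (ha.1 k).elim⟩
  rw [Mark.tv_fr ha]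
  exact (hz a ha).imp_right fun k k' => k ⟨_, (M.bn a).j_mem_core.2 k', rfl⟩

end thick

/-! ### uniform bounds -/

section unif
variable (W : World M) {lam : Type} [Fintype lam] [DecidableEq lam] {N : ML M lam} (Λ : Lns W N)
  {U : Set ℝ}

instance : Finite M.Cl := by unfold Mark.Cl; infer_instance

/-- **the principle**: continuous on `Ω` and bounded on the long necks -/
theorem unif (hU : IsCompact U) (g : ∀ _m c : M.Cl, Prm A × (W.Z c).M → ℝ)
    (hg : ∀ m c, ContinuousOn (g m c) (M.Ω c.1 (W.φ c))) (b : ∀ a, (M.bn a).Y.M → ℝ)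
    (hb : ∀ a, Continuous (b a)) (hn : ∀ m c p a q, p ∈ M.O c.1 → Nk M c p.2 a q →
      (a ∈ c.1 → ¬M.pin a) → g m c (p, W.nj c a q) ≤ b a q.1) :
    ∃ K, 0 ≤ K ∧ ∀ m c p, p.1 ∈ U → p.2 ∈ M.sys.Par → p ∈ M.O c.1 → ∀ z, g m c (p, z) ≤ K := by
  choose K hK using fun mc : M.Cl × M.Cl => (isCompact_Th W.toCaps (c := mc.2) hU
    one_half_pos).bddAbove_image ((hg mc.1 mc.2).mono (Th_subset _ one_half_pos))
  choose K' hK' using fun a => isCompact_univ.bddAbove_image (hb a).continuousOn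
  obtain ⟨k, hk⟩ := Finite.bddAbove_range K
  obtain ⟨k', hk'⟩ := Finite.bddAbove_range K'
  refine ⟨max 0 (max k k'), le_max_left _ _, fun m c p h1 h2 h3 z => le_max_of_le_right ?_⟩
  rcases th_or W.toCaps le_rfl h1 h2 (Mark.mem_Ω _ h3 z) with h | ⟨a, q, rfl, k1, -, -, k2⟩
  · exact le_max_of_le_left ((hK (m, c) ⟨_, h, rfl⟩).trans (hk ⟨_, rfl⟩))
  · exact le_max_of_le_right ((hn m c p a q h3 k1 k2).trans
      ((hK' a ⟨_, trivial, rfl⟩).trans (hk' ⟨_, rfl⟩)))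

theorem jAt_sc {m c : M.Cl} {p : Prm A} {z : (W.Z c).M} (h : (p, z) ∈ M.Ω c.1 (W.φ c)) :
    JAt (W.Z c).I (fun s => scL ((W.L m c).e s)) p z :=
  Mp86.jAt_scL (eventually_of_mem (W.isOpen_Ω.mem_nhds h) fun _ hq => (W.L m c).sm _ _ hq)
    ((W.L m c).sp _ _ h)

theorem unif_sc (hU : IsCompact U) : ∃ K, 0 ≤ K ∧ ∀ m c p, p.1 ∈ U → p.2 ∈ M.sys.Par →
    p ∈ M.O c.1 → ∀ z, |scF (W.F m c p) z| ≤ K := by
  obtain ⟨K, h0, hK⟩ := unif W hU (fun m c q => |scL ((W.L m c).e q.1) q.2|)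
    (fun m c q hq => (jAt_sc W hq).continuousAt.abs.continuousWithinAt)
    (fun a y => |scF (Cyf70.cyl (M.gY a)) (y, 0)|)
    (fun a => ((cont_scF _).comp (Continuous.prodMk_left 0)).abs)
    fun m c p a q h1 h2 _ => by
      rw [← F_e W m h1, ← Mp86.scF_eq]
      by_cases hp : M.pin a
      · rw [h2.sc_pin W m h1 hp, abs_zero]; exact abs_nonneg _
      · rw [h2.sc_cyl W m h1 hp]
  exact ⟨K, h0, fun m c p h1 h2 h3 z => by
    rw [Mp86.scF_eq, F_e W m h3]; exact hK m c p h1 h2 h3 z⟩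

theorem jAt_fl {m c : M.Cl} {p : Prm A} {z : (W.Z c).M} (h : (p, z) ∈ M.Ω c.1 (W.φ c))
    (i j : Option κ) : JAt (W.Z c).I (fun s y => e2 (((Λ.Λ m c).ln s).F (W.Z c).I y)
      ((W.L m c).e s i y) ((W.L m c).e s j y)) p z := by
  refine (ContMDiffAt.sum (t := Finset.univ) fun k _ => Pj41.FSm.mul' ((W.L m c).jAt_S h i k)
    (ContMDiffAt.sum (t := Finset.univ) fun l _ => Pj41.FSm.mul' ((W.L m c).jAt_S h j l)
      (jAt_F (Λ.Λ m c).ok (Wz78.frm (W.L m c).F0) (fun n => (Λ.Λ m c).sm n p z) k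
        l))).congr_of_eventuallyEq (.of_forall fun q => ?_)
  simp only [← (W.L m c).sum_S q.1 q.2 i, ← (W.L m c).sum_S q.1 q.2 j]
  exact (Num57.e2_vsum _ _ _ _ _).trans (Finset.sum_congr rfl fun k _ =>
    congrArg _ (Num57.e2_vsum' _ _ _ _ _))

theorem fL_eq {m c : M.Cl} {p : Prm A} (h : p ∈ M.O c.1) (z : (W.Z c).M) :
    ∑ s, Wz78.fL (Λ.B m c) (Λ.G m c p) z s ^ 2 =
      f2 (((Λ.Λ m c).ln p).F (W.Z c).I z) (atx ((W.L m c).e p) z) := by
  rw [f2, ← F_e W m h, Fintype.sum_prod_type]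
  exact Finset.sum_congr rfl fun i _ => Finset.sum_congr rfl fun j _ => congrArg (· ^ 2)
    (fL_geo ((Λ.Λ m c).ln_on p) (Λ.B_ok m c) rfl rfl _ z (i, j))

theorem unif_fL (hU : IsCompact U) : ∃ K, 0 ≤ K ∧ ∀ m c p, p.1 ∈ U → p.2 ∈ M.sys.Par →
    p ∈ M.O c.1 → ∀ z, ∑ s, Wz78.fL (Λ.B m c) (Λ.G m c p) z s ^ 2 ≤ K := by
  obtain ⟨K, h0, hK⟩ := unif W hU (fun m c q => f2 (((Λ.Λ m c).ln q.1).F (W.Z c).I q.2)
    (atx ((W.L m c).e q.1) q.2)) (fun m c q hq => (tendsto_finsetSum _ fun i _ =>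
      tendsto_finsetSum _ fun j _ => (jAt_fl W Λ hq i j).continuousAt.pow 2).mono_left
        nhdsWithin_le_nhds)
    (fun a y => f2 ((N.LY a).F (M.bn a).Y.I y) (atx (M.gY a).e y))
    (fun a => continuous_finsetSum _ fun i _ => continuous_finsetSum _ fun j _ =>
      (continuous_iff_continuousAt.2 fun x => (jAt_F (T := ℝ) (t := 0) (fun _ => N.okY a)
        (Wz78.frm (M.gY a)) (fun k => .of_fixed (Line51.fsm_e1 ((N.okY a).sa x trivial)
          (.of_forall fun y => (N.okY a).dg y trivial) ((M.gY a).sm k x))) i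
          j).right.continuousAt).pow 2)
    fun m c p a q _ h2 _ => by
      rw [h2.f2_eq W m Λ]
      by_cases hp : M.pin a
      · rw [f2_cy_pin N hp]; exact f2_nonneg _ _
      · rw [f2_cy_cyl N hp]
  exact ⟨K, h0, fun m c p h1 h2 h3 z => fL_eq W Λ h3 z ▸ hK m c p h1 h2 h3 z⟩

theorem fP_le {Z : Mf 4} {ι lam : Type} [Fintype ι] [Fintype lam] {B : Base Z.M ι lam}
    (hB : B.OK Z.I) (G : Geo Z.I Z.M ι lam) (z : Z.M) :
    ∑ s, Wz78.fP B G z s ^ 2 ≤ ∑ s, Wz78.fL B G z s ^ 2 :=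
  pr_sq_le ⟨Wz78.sd_symm hB z, Wz78.sd_sd hB z⟩ _

/-- **the zeroth order term of the Weitzenboeck formula is uniformly bounded** -/
theorem pscal (hU : IsCompact U) : ∃ K, 0 ≤ K ∧ ∀ m c p, p.1 ∈ U → p.2 ∈ M.sys.Par →
    p ∈ M.O c.1 → ∀ z, √(∑ s, Wz78.fP (Λ.B m c) (Λ.G m c p) z s ^ 2) -
      Wz78.sc (Λ.G m c p) z / 4 ≤ K := by
  obtain ⟨K, h0, hK⟩ := unif_sc W hU
  obtain ⟨K', -, hK'⟩ := unif_fL W Λ hU
  refine ⟨√K' + K / 4, by positivity, fun m c p h1 h2 h3 z => ?_⟩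
  have := Real.sqrt_le_sqrt ((fP_le (Λ.B_ok m c) _ z).trans (hK' m c p h1 h2 h3 z))
  have := neg_le_of_abs_le (hK m c p h1 h2 h3 z)
  show _ - scF (W.F m c p) z / 4 ≤ _
  linarith

end unif

end Crest.Agent.X212.Ps86
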